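import Vale.Agent.P275MM.Cmp
import Vale.Agent.P275MB.Nice

/-!
# P275, block MM: the maps between the moduli spaces
-/

set_option linter.all false

open scoped Topology Matrix.Norms.Operator
open Set Filter Metric Matrix Topology
open Vale.Agent.P275GC Vale.Agent.P275GC.At Vale.Agent.P275MO Vale.Agent.P275Z
open Vale.Agent.P275NA (Fm Cy Mn)
open Vale.Agent.P275MB (ty cont_ty pt_eq_iff inv_mem_alg)
open P275CC

noncomputable section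

namespace Vale.Agent.P275MM

variable {C : Type} [TopologicalSpace C] {n : ℕ} {A : At C} {l : Cy A ℂ} {τ τ' τ'' : Ty n}
  {T T' : Type} [TopologicalSpace T] [TopologicalSpace T'] {z z' : Dat C A.N n} {g g' : Mn n}
  {q q' : Submodule ℂ (Mn n)} {F : T → Dat C A.N n} {t : T}

theorem hy_of {d : ℤ} (s : Std A l n d) (k : KUR n A l) : Hy A l n := by
  have := s.t2
  have := s.conn
  exact ⟨s.t2, lt_of_lt_of_le two_pos s.two, fun r h1 h2 => P275MB.simp (A.res r h1 h2) l n,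
    fun r h1 h2 => P275MB.isoc (A.res r h1 h2) l n, k, P275MB.nice' s k⟩

theorem isOb_act (o : IsOb A l q z) (d : g.det ≠ 0) (m : g⁻¹ * z.R * g ∈ q') :
    IsOb A l q' (z.act g) := by
  obtain ⟨⟨r, a, b, c, s⟩, -⟩ := o
  exact ⟨⟨r, a, b, P275MB.Good.act (A := A.res r a b) c d, s⟩, m⟩

theorem isOb_le (o : IsOb A l q z) (e : q ≤ q') : IsOb A l q' z := ⟨o.1, e o.2⟩

theorem conj_mem (τ : Ty n) (m : g ∈ τ.H) (d : g.det ≠ 0) {R : Mn n} (hR : R ∈ τ.q) :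
    g⁻¹ * R * g ∈ τ.q := by
  have := (τ.conj _ (inv_mem_alg m d) (isUnit_nonsing_inv_det _ d.isUnit).ne_zero R hR).1
  rwa [nonsing_inv_nonsing_inv _ d.isUnit] at this

theorem pt_eq_ib {o : IsOb A l τ.q z} {o' : IsOb A l τ.q z'} :
    Ob.pt (τ := τ) ⟨z, o⟩ = Ob.pt ⟨z', o'⟩ ↔ ∃ φ h, h ∈ τ.H ∧ IB A z z' φ h :=
  pt_eq_iff.trans iso_iff_ib

theorem ty_pt (hH : τ.H ≤ τ'.H) (hq : τ.q ≤ τ'.q) (o : IsOb A l τ.q z) :
    ty hH hq (Ob.pt ⟨z, o⟩) = Ob.pt ⟨z, isOb_le o hq⟩ := rfl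

theorem ty_ty (hH : τ.H ≤ τ'.H) (hq : τ.q ≤ τ'.q) (hH' : τ'.H ≤ τ''.H) (hq' : τ'.q ≤ τ''.q)
    (y : Mod A l τ) : ty hH' hq' (ty hH hq y) = ty (hH.trans hH') (hq.trans hq') y := by
  obtain ⟨z, rfl⟩ := pt_surj y
  rfl

theorem ty_self (y : Mod A l τ) : ty le_rfl le_rfl y = y := by
  obtain ⟨z, rfl⟩ := pt_surj y
  rfl

theorem ty_x (hH : τ.H ≤ τ'.H) (hq : τ.q ≤ τ'.q) (y : Mod A l τ) : (ty hH hq y).x = y.x := by
  obtain ⟨z, rfl⟩ := pt_surj y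
  rfl

theorem ty_lam (hH : τ.H ≤ τ'.H) (hq : τ.q ≤ τ'.q) (y : Mod A l τ) :
    (ty hH hq y).lam = y.lam := by
  obtain ⟨z, rfl⟩ := pt_surj y
  rfl

theorem ty_sc (hH : τ.H ≤ τ'.H) (hq : τ.q ≤ τ'.q) (s : ℂˣ) (y : Mod A l τ) :
    ty hH hq (P275MB.sc s y) = P275MB.sc s (ty hH hq y) := by
  obtain ⟨z, rfl⟩ := pt_surj y
  rfl

/-- the change of type as a continuous map -/
def tyC (A : At C) (l : Cy A ℂ) (hH : τ.H ≤ τ'.H) (hq : τ.q ≤ τ'.q) :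
    C(Mod A l τ, Mod A l τ') := ⟨ty hH hq, cont_ty hH hq⟩

/-- the change of type between equal types -/
def tyH (A : At C) (l : Cy A ℂ) (hH : τ.H = τ'.H) (hq : τ.q = τ'.q) :
    Mod A l τ ≃ₜ Mod A l τ' where
  toFun := ty hH.le hq.le
  invFun := ty hH.ge hq.ge
  left_inv y := (ty_ty _ _ _ _ y).trans (ty_self y)
  right_inv y := (ty_ty _ _ _ _ y).trans (ty_self y)
  continuous_toFun := cont_ty _ _
  continuous_invFun := cont_ty _ _

theorem ty_act (hH : τ.H ≤ τ'.H) (hq : τ.q ≤ τ'.q) (o : IsOb A l τ.q (z.act g))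
    (o' : IsOb A l τ'.q z) (m : g ∈ τ'.H) : ty hH hq (Ob.pt ⟨_, o⟩) = Ob.pt ⟨z, o'⟩ :=
  (ty_pt hH hq o).trans (pt_eq_ib.2 ⟨_, g, m, IB.act z g⟩)

theorem ib_act (gd : Gd A l z) (g : Mn n) (d : g'.det ≠ 0) :
    IB A (z.act g) (z.act g') (fun _ _ => 1) (g'⁻¹ * g) := by
  simpa only [one_mul] using IB.act₂ gd (IB.refl z) g d

theorem IB.to_act {φ : Fm A (Mn n)} (gd : Gd A l z') (d : g.det ≠ 0) (f : IB A z z' φ g) :
    IB A z (z'.act g) φ 1 := by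
  have := f.trans ((IB.act z' g).symm (gd.act d))
  simpa only [nonsing_inv_mul _ d.isUnit, inv_one, one_mul] using this

/-- every point of the fibre is given by a change of the frame -/
theorem exists_act {hH : τ.H ≤ τ'.H} {hq : τ.q ≤ τ'.q} {y : Mod A l τ} {o' : IsOb A l τ'.q z}
    (e : ty hH hq y = Ob.pt ⟨z, o'⟩) :
    ∃ g ∈ τ'.H, g.det ≠ 0 ∧ ∃ o : IsOb A l τ.q (z.act g), Ob.pt ⟨_, o⟩ = y := by
  obtain ⟨⟨w, o⟩, rfl⟩ := pt_surj y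
  obtain ⟨φ, h, m, f⟩ := pt_eq_ib.1 ((ty_pt hH hq o).symm.trans e)
  have d := f.det_h (Gd.of o)
  have r : h⁻¹ * z.R * h = w.R := by
    rw [f.R (Gd.of o) (Gd.of o'), ← mul_assoc, ← mul_assoc, nonsing_inv_mul _ d.isUnit, one_mul,
      mul_assoc, nonsing_inv_mul _ d.isUnit, mul_one]
  exact ⟨h, m, d, isOb_act o' d (r ▸ o.2),
    (pt_eq_ib.2 ⟨_, 1, one_mem _, f.to_act (Gd.of o') d⟩).symm⟩

theorem pt_act_of (gd : Gd A l z) (o : IsOb A l τ.q (z.act g)) (o' : IsOb A l τ.q (z.act g'))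
    (d : g'.det ≠ 0) (m : g'⁻¹ * g ∈ τ.H) : Ob.pt (τ := τ) ⟨_, o⟩ = Ob.pt ⟨_, o'⟩ :=
  pt_eq_ib.2 ⟨_, _, m, ib_act gd g d⟩

theorem pt_act_iff [Hy A l n] (gd : Gd A l z) (o : IsOb A l τ.q (z.act g))
    (o' : IsOb A l τ.q (z.act g')) (d : g'.det ≠ 0) :
    Ob.pt (τ := τ) ⟨_, o⟩ = Ob.pt ⟨_, o'⟩ ↔ g'⁻¹ * g ∈ τ.H := by
  refine ⟨fun e => ?_, pt_act_of gd o o' d⟩
  obtain ⟨φ, h, m, f⟩ := pt_eq_ib.1 e
  obtain ⟨s, -, e, -⟩ := IB.uniq o f (ib_act gd g d)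
  exact e ▸ τ.H.smul_mem m s

theorem isOb_act_of (o' : IsOb A l q z) (o : IsOb A l τ.q (z.act g)) (d : g.det ≠ 0)
    (d' : g'.det ≠ 0) (m : g'⁻¹ * g ∈ τ.H) : IsOb A l τ.q (z.act g') := by
  refine isOb_act o' d' ?_
  have d2 := (ib_act (Gd.of o') g d').det_h (Gd.of o)
  have := (ib_act (Gd.of o') g d').R (Gd.of o) ((Gd.of o').act d')
  exact (this ▸ (τ.conj _ m d2 _ o.2).1 : (z.act g').R ∈ τ.q)

/-- limits along a family -/
theorem tendsto_of_fam (fa : FamAt A l F t) (o : IsOb A l τ.q (F t)) {J : Type*} {U : Filter J}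
    {s : J → T} (hs : Tendsto s U (𝓝 t)) {f : J → Mod A l τ}
    (e : ∀ᶠ j in U, ∃ o : IsOb A l τ.q (F (s j)), Ob.pt ⟨_, o⟩ = f j) :
    Tendsto f U (𝓝 (Ob.pt ⟨F t, o⟩)) := by
  classical
  have h1 : FamAt A l (fun p : {p // IsOb A l τ.q (F p)} => (⟨F p, p.2⟩ : Ob A l τ).1) ⟨t, o⟩ :=
    P275MB.FamAt.comp (u := Subtype.val) fa
      (Eventually.of_forall fun _ => continuous_subtype_val.continuousAt)
  let s' : J → {p // IsOb A l τ.q (F p)} :=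
    fun j => if a : IsOb A l τ.q (F (s j)) then ⟨s j, a⟩ else ⟨t, o⟩
  have h2 : ∀ j (a : IsOb A l τ.q (F (s j))), s' j = ⟨s j, a⟩ := fun j a => dif_pos a
  have h3 : Tendsto s' U (𝓝 ⟨t, o⟩) :=
    tendsto_subtype_rng.2 (hs.congr' (e.mono fun j ⟨a, _⟩ => (congrArg Subtype.val (h2 j a)).symm))
  refine (h1.continuousAt.tendsto.comp h3).congr' (e.mono fun j ⟨a, b⟩ => ?_)
  rw [Function.comp_apply, h2 j a, b]

theorem contOn_of_fam {V : Set T} {f : T → Mod A l τ} (fa : ∀ t ∈ V, FamAt A l F t)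
    (e : ∀ t ∈ V, ∃ o : IsOb A l τ.q (F t), Ob.pt ⟨_, o⟩ = f t) : ContinuousOn f V := by
  intro t a
  obtain ⟨o, b⟩ := e t a
  rw [ContinuousWithinAt, ← b]
  exact tendsto_of_fam (fa t a) o (s := id) (tendsto_id.mono_left nhdsWithin_le_nhds)
    (eventually_of_mem self_mem_nhdsWithin e)

theorem famAt_act₂ (fa : FamAt A l F t) (d : g.det ≠ 0) :
    FamAt A l (fun p : T × Mn n => (F p.1).act p.2) (t, g) :=
  famAt_act (P275MB.FamAt.comp (u := Prod.fst) fa (Eventually.of_forall fun _ => continuousAt_fst))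
    (Eventually.of_forall fun _ => continuousAt_snd) d

theorem mem_of_famAt (fa : FamAt A l F t) {J : Type*} {U : Filter J} [U.NeBot] {s : J → T}
    (hs : Tendsto s U (𝓝 t)) (e : ∀ᶠ j in U, (F (s j)).R ∈ q) : (F t).R ∈ q := by
  obtain ⟨r, h1, h2, W, hW, f⟩ := fa
  exact q.closed_of_finiteDimensional.mem_of_tendsto ((f.R.continuousAt hW).tendsto.comp hs) e

theorem ty_inj (hH : τ.H ≤ τ'.H) (hq : τ.q ≤ τ'.q) (hH' : τ'.H ≤ τ.H) :
    Function.Injective (ty (A := A) (l := l) hH hq) := by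
  intro y y' e
  obtain ⟨⟨z, o⟩, rfl⟩ := pt_surj y
  obtain ⟨⟨z', o'⟩, rfl⟩ := pt_surj y'
  obtain ⟨φ, h, m, f⟩ := pt_eq_ib.1 (((ty_pt hH hq o).symm.trans e).trans (ty_pt hH hq o'))
  exact pt_eq_ib.2 ⟨φ, h, hH' m, f⟩

theorem mem_range_ty (hH : τ.H ≤ τ'.H) (hq : τ.q ≤ τ'.q) (hH' : τ'.H ≤ τ.H)
    (o' : IsOb A l τ'.q z) : Ob.pt ⟨z, o'⟩ ∈ range (ty hH hq) ↔ z.R ∈ τ.q := by
  refine ⟨fun ⟨y, e⟩ => ?_, fun m => ⟨Ob.pt ⟨z, o'.1, m⟩, rfl⟩⟩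
  obtain ⟨g, m, d, o, -⟩ := exists_act e
  have := (isOb_act_of (g' := 1) o' o d (by simp) (by simpa using hH' m)).2
  simpa [Dat.act] using this

theorem ty_surj (hH : τ.H ≤ τ'.H) (hq : τ.q ≤ τ'.q) (hq' : τ'.q ≤ τ.q) :
    Function.Surjective (ty (A := A) (l := l) hH hq) := fun y => by
  obtain ⟨⟨z, o⟩, rfl⟩ := pt_surj y
  exact ⟨Ob.pt ⟨z, isOb_le o hq'⟩, rfl⟩

/-- the units of a subalgebra -/
def Un (H : Subalgebra ℂ (Mn n)) : Set (Mn n) := {g | g ∈ H ∧ g.det ≠ 0}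

variable [hy : Hy A l n]

/-- the change of type is proper if the quotient of the groups is compact -/
theorem ty_proper (hH : τ.H ≤ τ'.H) (hq : τ.q ≤ τ'.q) {K : Set (Mn n)} (hK : IsCompact K)
    (h1 : K ⊆ Un τ'.H) (h2 : ∀ g ∈ Un τ'.H, ∃ k ∈ K, k⁻¹ * g ∈ τ.H) :
    IsProperMap (ty (A := A) (l := l) hH hq) := by
  refine isProperMap_iff_ultrafilter.2 ⟨cont_ty hH hq, fun U y hU => ?_⟩
  obtain ⟨W, F, op, m, hF⟩ := exists_loc y
  obtain ⟨k1, hk1, -⟩ := h2 1 ⟨one_mem _, by simp⟩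
  have key : ∀ x : Mod A l τ, ∃ k ∈ K, ty hH hq x ∈ W →
      ∃ o : IsOb A l τ.q ((F (ty hH hq x)).1.act k), Ob.pt ⟨_, o⟩ = x := fun x => by
    by_cases a : ty hH hq x ∈ W
    · obtain ⟨g, m, d, o, e⟩ := exists_act (o' := (F _).2) (hF _ a).2.symm
      obtain ⟨k, b, c⟩ := h2 g ⟨m, d⟩
      have o' := isOb_act_of (F _).2 o d (h1 b).2 c
      exact ⟨k, b, fun _ => ⟨o', (pt_act_of (Gd.of (F _).2) o o' (h1 b).2 c).symm.trans e⟩⟩
    · exact ⟨k1, hk1, fun b => (a b).elim⟩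
  choose k hk e using key
  obtain ⟨k0, m0, t0⟩ := hK.ultrafilter_le_nhds (U.map k)
    (le_principal_iff.2 (Eventually.of_forall hk : ∀ᶠ x in (U : Filter _), k x ∈ K))
  have fa := famAt_act₂ (hF y m).1 (h1 m0).2
  have ts : Tendsto (fun x => (ty hH hq x, k x)) U (𝓝 (y, k0)) := hU.prodMk_nhds t0
  have ev := (hU.eventually (op.mem_nhds m)).mono e
  have o := isOb_act (F y).2 (h1 m0).2 (mem_of_famAt fa ts (ev.mono fun _ ⟨o, _⟩ => o.2))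
  exact ⟨_, (ty_act hH hq o (F y).2 (h1 m0).1).trans (hF y m).2,
    tendsto_of_fam fa o ts (f := id) ev⟩

/-- a smaller space of residues gives a closed subspace -/
theorem ty_emb (hH : τ.H ≤ τ'.H) (hq : τ.q ≤ τ'.q) (hH' : τ'.H ≤ τ.H) :
    IsClosedEmbedding (ty (A := A) (l := l) hH hq) :=
  .of_continuous_injective_isClosedMap (cont_ty hH hq) (ty_inj hH hq hH')
    (ty_proper hH hq isCompact_singleton (K := {1}) (by rintro _ rfl; exact ⟨one_mem _, by simp⟩)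
      fun g m => ⟨1, rfl, by simpa using hH' m.1⟩).isClosedMap

/-- a local presentation of the change of the group of frames -/
structure Pres (hH : τ.H ≤ τ'.H) (hq : τ.q ≤ τ'.q) (W : Set (Mod A l τ'))
    (P : Mod A l τ' × Mn n → Mod A l τ) : Prop where
  op : IsOpen W
  ct : ContinuousOn P (W ×ˢ Un τ'.H)
  pr : ∀ t ∈ W, ∀ g ∈ Un τ'.H, ty hH hq (P (t, g)) = t
  eq : ∀ t ∈ W, ∀ g ∈ Un τ'.H, ∀ g' ∈ Un τ'.H, P (t, g) = P (t, g') ↔ g'⁻¹ * g ∈ τ.H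
  sec : ∀ x, ty hH hq x ∈ W → ∃ V ∈ 𝓝 x, ∃ u : Mod A l τ → Mn n, ContinuousOn u V ∧
    ∀ x' ∈ V, ty hH hq x' ∈ W ∧ u x' ∈ Un τ'.H ∧ P (ty hH hq x', u x') = x'

theorem exists_pres (hH : τ.H ≤ τ'.H) (hq : τ.q ≤ τ'.q) (hq' : τ'.q ≤ τ.q) (y : Mod A l τ') :
    ∃ (W : Set (Mod A l τ')) (F : Mod A l τ' → Ob A l τ') (P : Mod A l τ' × Mn n → Mod A l τ),
      y ∈ W ∧ Pres hH hq W P ∧ ∀ t ∈ W, FamAt A l (fun s => (F s).1) t ∧ (F t).pt = t ∧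
        ∀ g ∈ Un τ'.H, ∃ o : IsOb A l τ.q ((F t).1.act g), Ob.pt ⟨_, o⟩ = P (t, g) := by
  classical
  obtain ⟨W, F, op, m, hF⟩ := exists_loc y
  let P : Mod A l τ' × Mn n → Mod A l τ := fun p =>
    if a : IsOb A l τ.q ((F p.1).1.act p.2) then Ob.pt ⟨_, a⟩ else Ob.pt ⟨_, isOb_le (F y).2 hq'⟩
  have ob : ∀ t, ∀ g ∈ Un τ'.H, IsOb A l τ.q ((F t).1.act g) := fun t g a =>
    isOb_act (F t).2 a.2 (hq' (conj_mem τ' a.1 a.2 (F t).2.2))
  have hP : ∀ t g (a : g ∈ Un τ'.H), Ob.pt ⟨_, ob t g a⟩ = P (t, g) := fun t g a => by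
    simp only [P]
    rw [dif_pos (ob t g a)]
  refine ⟨W, F, P, m, ⟨op, ?_, fun t a g b => ?_, fun t a g b g' b' => ?_, fun x a => ?_⟩,
    fun t a => ⟨(hF t a).1, (hF t a).2, fun g b => ⟨_, hP t g b⟩⟩⟩
  · exact contOn_of_fam (F := fun p => (F p.1).1.act p.2)
      (fun p a => famAt_act₂ (hF _ a.1).1 a.2.2) fun p a => ⟨_, hP _ _ a.2⟩
  · rw [← hP t g b, ty_act hH hq _ (F t).2 b.1]
    exact (hF t a).2
  · rw [← hP t g b, ← hP t g' b']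
    exact pt_act_iff (Gd.of (F t).2) _ _ b'.2
  · obtain ⟨W', G, op', m', hG⟩ := exists_loc x
    have e1 := (op.preimage (cont_ty hH hq)).mem_nhds a
    obtain ⟨V, hV, Φ, u, f⟩ := exists_lf (H := τ'.H) (hG x m').1 (P275MB.FamAt.comp
      (u := ty hH hq) (hF _ a).1 (Eventually.of_forall fun _ => (cont_ty hH hq).continuousAt))
      (by
        filter_upwards [e1, op'.mem_nhds m'] with s b c
        refine ⟨(G s).2, (F _).2, pt_eq_iff.1 (?_ : Ob.pt (τ := τ') ⟨_, isOb_le (G s).2 hq⟩ = _)⟩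
        rw [(hF _ b).2]
        exact congrArg (ty hH hq) (hG s c).2)
    refine ⟨_, inter_mem hV (inter_mem e1 (op'.mem_nhds m')), u, f.cu.mono inter_subset_left,
      fun s b => ?_⟩
    have d := (f.iso s b.1).det_h (Gd.of (G s).2)
    refine ⟨b.2.1, ⟨f.mem s b.1, d⟩, ?_⟩
    rw [← hP _ _ ⟨f.mem s b.1, d⟩]
    exact (pt_eq_ib.2 ⟨_, 1, one_mem _, (f.iso s b.1).to_act (Gd.of (F _).2) d⟩).symm.trans
      (hG s b.2.2).2

/-- local sections through every point -/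
theorem exists_sec (hH : τ.H ≤ τ'.H) (hq : τ.q ≤ τ'.q) (hq' : τ'.q ≤ τ.q) (x : Mod A l τ) :
    ∃ (W : Set (Mod A l τ')) (σ : Mod A l τ' → Mod A l τ), IsOpen W ∧ ty hH hq x ∈ W ∧
      ContinuousOn σ W ∧ σ (ty hH hq x) = x ∧ ∀ t ∈ W, ty hH hq (σ t) = t := by
  obtain ⟨W, -, P, m, p, -⟩ := exists_pres hH hq hq' (ty hH hq x)
  obtain ⟨V, hV, u, -, e⟩ := p.sec x m
  obtain ⟨-, a, b⟩ := e x (mem_of_mem_nhds hV)
  exact ⟨W, fun t => P (t, u x), p.op, m, p.ct.comp (continuousOn_id.prodMk continuousOn_const)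
    fun _ c => ⟨c, a⟩, b, fun t c => p.pr t c _ a⟩

theorem ty_open (hH : τ.H ≤ τ'.H) (hq : τ.q ≤ τ'.q) (hq' : τ'.q ≤ τ.q) :
    IsOpenMap (ty (A := A) (l := l) hH hq) := by
  refine IsOpenMap.of_nhds_le fun x s hs => ?_
  obtain ⟨W, σ, op, m, c, e, f⟩ := exists_sec hH hq hq' x
  have := (c.continuousAt (op.mem_nhds m)).tendsto
  rw [e] at this
  filter_upwards [this hs, op.mem_nhds m] with t a b
  exact f t b ▸ a

omit hy in
theorem range_ZY (hn : 2 ≤ n) : range (ty (A := A) (l := l) (τ := tauZ n 0) (τ' := tauY hn) le_rfl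
    (nk_le_qY 0)) = {y | y.η = 0} := by
  ext y
  obtain ⟨⟨z, o⟩, rfl⟩ := pt_surj y
  refine (mem_range_ty (τ := tauZ n 0) (τ' := tauY hn) le_rfl _ le_rfl o).trans ?_
  have e := P275MB.η_pt (τ := tauY hn) ⟨z, o⟩
  exact (mem_nk_zero hn).trans ⟨fun a => e.trans (funext fun _ => a.2),
    fun a => ⟨o.2, congrFun (e.symm.trans a) (0 : Fin 1)⟩⟩

section root

variable {H : Subalgebra ℂ (Mn n)}

/-- a diagonal entry as a character of a triangular group -/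
def entB (hH : H ≤ bor n) (a : Fin n) : Chr H := Chr.ent a fun _ b _ c => diag_mul (hH b) (hH c) a

variable {hH : H ≤ bor n} (j : Fin (nr n)) (S : Sys A l (tauN H hH j) T)

/-- the line bundle of the `j`-th root -/
def Sys.root : LB T := S.lb (entB hH (ra j)) (entB hH (rb j)) rfl

/-- the `j`-th root coordinate of the residue -/
def Sys.rs (a : S.ι) (t : T) : ℂ := (S.F a t).R (ra j) (rb j)

theorem Sys.rs_sec : (S.root j).Sec Set.univ (S.rs j) := by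
  refine ⟨fun a => (ctOn_ent (ct_R (S.fam a)) _ _).mono inter_subset_left,
    fun a b t ma mb _ => ?_⟩
  have m := hH (S.mem ma mb)
  have d := S.det_h ma mb
  have e := diag_mul m (inv_mem_bor m d) (rb j)
  rw [mul_nonsing_inv _ d.isUnit, one_apply_eq] at e
  change (S.F a t).R _ _ = S.h a b t _ _ / S.h a b t _ _ * (S.F b t).R _ _
  rw [(S.ib ma mb).R (S.gd mb) (S.gd ma), root_mul m (inv_mem_bor m d) j (S.ob b t mb).2,
    eq_inv_of_mul_eq_one_right e.symm]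
  ring

omit hy in
theorem Sys.rs_eq_zero {a : S.ι} {t : T} (m : t ∈ S.U a) : S.rs j a t = 0 ↔ S.f t ∈ range
    (P275MB.ty (τ := tauN H hH (j + 1)) (τ' := tauN H hH j) le_rfl (nk_anti (Nat.le_succ _))) := by
  rw [← S.pt a t m]
  refine Iff.trans ?_ (mem_range_ty (τ := tauN H hH (j + 1)) (τ' := tauN H hH j) le_rfl _ le_rfl
    (S.ob a t m)).symm
  refine ⟨fun e => ⟨(S.ob a t m).2.1, fun i b => ?_⟩, fun e => e.2 j (Nat.lt_succ_self _)⟩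
  rcases (Nat.lt_succ_iff.1 b).lt_or_eq with c | c
  · exact (S.ob a t m).2.2 i c
  · exact Fin.ext c ▸ e

end root

end Vale.Agent.P275MM
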