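import Vale.Agent.P275MM.Flg
import Vale.Agent.P275OP.Coef
import Vale.Agent.P275XI.Alg
import Vale.Agent.P275MC.Gk

/-!
# P275, block MM: the pull-back to the flag bundle is graded
-/

set_option linter.all false
set_option backward.isDefEq.respectTransparency false

open CategoryTheory Set Topology Finset
open Vale.Agent.P275GC Vale.Agent.P275MO Vale.Agent.P275Z Vale.Agent.P275OI Vale.Agent.P275XI
open Vale.Agent.P275NA (Cy)
open P275CC (Nc LB PFib Th)
open P275S (H Hd Nice KG act)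

noncomputable section

namespace Vale.Agent.P275MM

variable {C : Type} [TopologicalSpace C] [Nc C] {n : ℕ} {A : At C} {l : Cy A ℂ} [hy : Hy A l n]
  {c : ℂ}

theorem sum_nr (n : ℕ) : ∑ k ∈ Finset.Ico 0 n, (n - k - 1) = nr n := by
  have h := Finset.sum_range_reflect (fun i => i) n
  have h' := Finset.sum_range_id_mul_two n
  rw [← Finset.range_eq_Ico, Finset.sum_congr rfl fun k _ => Nat.sub_right_comm n k 1, h]
  have := two_nr n
  omega

theorem cl_sL (τ : Ty n) : IsClosed (sL A l τ c) := isClosed_eq P275MB.cont_lam continuous_const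

instance (τ : Ty n) : Nc (sL A l τ c) := Nc.cls (cl_sL τ)

theorem tyC_sL {τ τ' : Ty n} {hH : τ.H ≤ τ'.H} {hq : τ.q ≤ τ'.q} {y : Mod A l τ} :
    tyC A l hH hq y ∈ sL A l τ' c ↔ y ∈ sL A l τ c := (ty_lam hH hq y).congr_left

theorem tyC_tyC {τ τ' τ'' : Ty n} {hH : τ.H ≤ τ'.H} {hq : τ.q ≤ τ'.q} {hH' : τ'.H ≤ τ''.H}
    {hq' : τ'.q ≤ τ''.q} {hH'' : τ.H ≤ τ''.H} {hq'' : τ.q ≤ τ''.q} (y : Mod A l τ) :
    tyC A l hH' hq' (tyC A l hH hq y) = tyC A l hH'' hq'' y := ty_ty hH hq hH' hq' y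

variable (A l c) in
/-- one step of the tower on a slice -/
def piS (k : ℕ) : C(sL A l (tauP n (k + 1)) c, sL A l (tauP n k) c) :=
  ⟨fun y => ⟨piP A l n k y.1, tyC_sL.2 y.2⟩,
    ((piP A l n k).continuous.comp continuous_subtype_val).subtype_mk _⟩

theorem lh_piS {k : ℕ} (h : k < n) (b : HH (sL A l (tauP n (k + 1)) c)) :
    ∃ a : Fin (n - k - 1 + 1) → HH (sL A l (tauP n k) c), b = ∑ i, pq (piS A l c k) (a i) *
      pq (P275CC.inc _) (yP A l th n k).1 ^ (i : ℕ) := by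
  obtain ⟨a, e⟩ := (P275S.lhpZ (piS A l c k) (((univ A l (tauP n (k + 1))).y ⟨k, h⟩ le_rfl).pb
    (P275CC.inc _)) (n - k - 1) n (isProperMap_of_comp_of_inj (piS A l c k).continuous
      continuous_subtype_val (show IsProperMap (piP A l n k ∘ Subtype.val) from
        (piP_proper ⟨k, h⟩).comp (cl_sL _).isProperMap_subtypeVal)
      Subtype.val_injective) hy.pos.ne' fun x => by
        rw [show piS A l c k ⁻¹' {x} = P275CC.inc _ ⁻¹' (piP A l n k ⁻¹' {x.1}) from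
          Set.ext fun _ => Subtype.ext_iff]
        exact pfib_emb (piP_pfib ⟨k, h⟩ _ (univ_f A l _) x.1) _ IsEmbedding.subtypeVal
          fun y (e : piP A l n k y = x) => ⟨⟨y, tyC_sL.1 (e ▸ x.2 : piP A l n k y ∈ _)⟩, rfl⟩).2 b
  refine ⟨a, e.symm.trans ?_⟩
  rw [cq_pb, yP_eq ⟨k, h⟩]
  rfl

theorem yP_mem (k : ℕ) : (yP A l th n k).1 ∈ Hd ℂ (MT A l (tauP n (k + 1))) 2 := by
  rw [yP]
  split_ifs
  · exact cq_mem _
  · exact zero_mem _

section tw

variable {E X : TopCat.{0}} [Nice E] (i : E ⟶ MT A l (tauZ n (nr n)))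

/-- the classes of the lines of the flag -/
def yC (k : ℕ) : Subalgebra.center ℂ (H ℂ E) :=
  ⟨P275S.pb i (pq (pZ A l n (k + 1)) (yP A l th n k).1), Subalgebra.mem_center_iff.2 fun b =>
    (P275S.commute_of_even (P275S.pb_mem _ (P275S.pb_mem _ (yP_mem k))) even_two b).eq.symm⟩

theorem yC_eq (b : Fin n) : (yC i b).1 = P275S.pb i (yE A l _ le_rfl b).1 :=
  congrArg (P275S.pb i) (show pq (pZ A l n (b + 1)) (yP A l th n b).1 = (yE A l _ le_rfl b).1 from
    congrArg Subtype.val (pe_yP (θ := th) b))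

theorem mon_mem (J : ℕ → ℕ) : ∀ k, mon (yC i) 0 k J ∈ Hd ℂ E (2 * (∑ j ∈ Finset.Ico 0 k, J j : ℕ))
  | 0 => by
    rw [mon_self]
    exact P275S.one_mem_Hd
  | k + 1 => by
    rw [mon_split (Nat.le_succ k), mon_bot (Nat.lt_succ_self k), mon_self, mul_one,
      Finset.sum_Ico_succ_top (Nat.zero_le k)]
    exact P275S.mul_mem_Hd (by push_cast; ring) (mon_mem J k)
      (P275S.pow_mem_Hd (P275S.pb_mem _ (P275S.pb_mem _ (yP_mem k))) _)

variable {i} (hi : IsEmbedding i) (ri : range i = sL A l _ c)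

/-- the partial flag -/
def toS (k : ℕ) : E ⟶ TopCat.of (sL A l (tauP n k) c) :=
  cod (i ≫ TopCat.ofHom (pZ A l n k)) _ fun y =>
    show pZ A l n k (i y) ∈ _ from tyC_sL.2 (ri.subset ⟨y, rfl⟩)

include hi in
theorem tw {j : X ⟶ MT A l (tauX n)} (rj : range j = sL A l _ c) {f : E ⟶ X}
    (sq : ∀ y, fg n A l (i y) = j (f y)) :
    Tw (P275S.pb f) (fun k => (P275S.pb (toS ri k)).range) (yC i) (fun k => n - k - 1) n := by
  have e : ∀ k, toS ri (k + 1) ≫ TopCat.ofHom (piS A l c k) = toS ri k := fun k =>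
    TopCat.hom_ext (ContinuousMap.ext fun y => Subtype.ext (DFunLike.congr_fun (piP_pZ k) (i y)))
  have y : ∀ k, P275S.pb (toS ri (k + 1)) (pq (P275CC.inc _) (yP A l th n k).1) = (yC i k).1 :=
    fun k => (P275S.pb_comp _ _ _).trans
      (P275S.pb_comp i (TopCat.ofHom (pZ A l n (k + 1))) (yP A l th n k).1).symm
  refine ⟨?_, fun b => ?_, ?_, fun k _ => ⟨_, y k⟩, ?_⟩
  · rintro _ ⟨a, rfl⟩
    let g : C(Mod A l (tauX n), FP A l n 0) := tyC A l par_zero.ge le_rfl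
    refine ⟨P275S.pb (cod (j ≫ TopCat.ofHom g) _ fun x =>
      show g (j x) ∈ _ from tyC_sL.2 (rj.subset ⟨x, rfl⟩)) a, ?_⟩
    rw [P275S.pb_comp]
    exact congrArg (P275S.pb · a) (TopCat.hom_ext (ContinuousMap.ext fun y => Subtype.ext
      ((show g (tyC A l le_top nk_top.le (i y)) = pZ A l n 0 (i y) from tyC_tyC _).symm.trans
        (congrArg g (sq y)))))
  · let u := hi.toHomeomorph
    let g : TopCat.of (sL A l (tauP n n) c) ⟶ E := TopCat.ofHom
      ⟨fun y => u.symm ⟨qZ A l (Nat.le_succ n) y.1, ri.superset (tyC_sL.2 y.2)⟩,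
        u.symm.continuous.comp (((qZ A l _).continuous.comp continuous_subtype_val).subtype_mk _)⟩
    refine ⟨P275S.pb g b, (P275S.pb_comp _ _ _).trans ?_⟩
    rw [show toS ri n ≫ g = 𝟙 E from TopCat.hom_ext (ContinuousMap.ext fun y =>
      u.symm_apply_eq.2 (Subtype.ext (DFunLike.congr_fun (qZ_pZ (Nat.le_succ n)) (i y))))]
    exact P275S.pb_id b
  · rintro k - _ ⟨a, rfl⟩
    exact ⟨pq (piS A l c k) a, (P275S.pb_comp _ _ _).trans (by rw [e]; rfl)⟩
  · rintro k hk _ ⟨b, rfl⟩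
    obtain ⟨a, rfl⟩ := lh_piS hk b
    refine ⟨fun m => if h : m < n - k - 1 + 1 then P275S.pb (toS ri k) (a ⟨m, h⟩) else 0,
      fun m => ?_, ?_⟩
    · beta_reduce
      split_ifs
      · exact ⟨_, rfl⟩
      · exact zero_mem _
    · rw [Finset.sum_range]
      refine (map_sum (P275S.pb (toS ri (k + 1))) _ _).trans (Finset.sum_congr rfl fun m _ => ?_)
      beta_reduce
      rw [dif_pos m.2, map_mul, map_pow, y, ← e k, ← P275S.pb_comp]
      rfl

end tw

section pbt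

open scoped Manifold ContDiff
open Vale.Agent.P272.K Vale.Agent.P281Z.Hg Vale.Agent.P275MC Vale.Agent.P275FM Vale.Agent.P275AR

variable {d d' : ℕ} {M N : Type} [TopologicalSpace M] [ChartedSpace (Cm d) M]
  [IsManifold 𝓘(ℂ, Cm d) ω M] [T2Space M] [SecondCountableTopology M] [TopologicalSpace N]
  [ChartedSpace (Cm d') N] [IsManifold 𝓘(ℂ, Cm d') ω N] [T2Space N] [SecondCountableTopology N]

/-- **PBT** -/
theorem pbt (hn : 2 ≤ n) (hd : d = d' + nr n) {i : TopCat.of M ⟶ MT A l (tauZ n (nr n))}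
    {j : TopCat.of N ⟶ MT A l (tauX n)} (hi : IsEmbedding i) (hj : IsEmbedding j)
    (ri : range i = sL A l _ c) (rj : range j = sL A l _ c) {f : M → N}
    (sq : ∀ y, fg n A l (i y) = j (f y)) {hf : Smo d d' f} (a : Act (Set.univ : Set N) Set.univ (pb hf))
    {u : ℕ → Module.End ℂ (H ℂ (TopCat.of M))} {w : ℕ → Module.End ℂ (H ℂ (TopCat.of N))}
    (hu : IsGr u) (hw : IsGr w) (hg : Grd u w 0 (gys a))
    (hb : ∀ b : Fin n, MG u (-2) (P275S.pb i (yE A l _ le_rfl b).1))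
    (h0 : ∀ x ∈ Hd ℂ (TopCat.of N) 0, MG w 0 x) :
    Grd w u (2 * nr n) (P275S.pb (tm hf)).toLinearMap := by
  have := nice (d := d) (M := M)
  have := nice (d := d') (M := N)
  have T := tw hi ri rj (f := tm hf) sq
  have h1 : ∀ J, ∑ k ∈ Finset.Ico 0 n, J k < ∑ k ∈ Finset.Ico 0 n, (n - k - 1) →
      gys a (mon (yC i) 0 n J) = 0 := fun J hJ =>
    P275S.eq_zero_of_neg (n := 2 * (∑ k ∈ Finset.Ico 0 n, J k : ℕ) - 2 * nr n)
      (by rw [sum_nr] at hJ; omega) (gys_mem a (mon_mem i J n) (by omega))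
  have h2 := gys_mem (n := 0) a (mon_mem i (fun k => n - k - 1) n) (by rw [sum_nr]; omega)
  have h3 : Ce _ := P275S.commute_of_even h2 Even.zero
  obtain ⟨Q, -⟩ := flg (A := A) (l := l) hn
  obtain ⟨ψ, m, -, -, e⟩ := P275OP.exists_tr (p := fg n A l) (π := tm hf)
    ⟨hj, hi, by rw [ri, rj]; exact Set.ext fun _ => tyC_sL.symm,
      TopCat.hom_ext (ContinuousMap.ext fun y => (sq y).symm)⟩
    Q.lh Q.dg Q.c_mem Q.top Q.G Q.G_mul Q.G_top Q.G_low
  obtain ⟨lam, e'⟩ := act_eq_gys a (φ := ψ) (by convert m using 2; rw [Q.dg_top]; omega)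
  have h4 := (e' _).symm.trans (e (Q.c Q.top))
  rw [Q.G_top, map_one] at h4
  have := T.grd (gys_mul a) h1 hw hu hg (fun k hk => yC_eq i ⟨k, hk⟩ ▸ hb ⟨k, hk⟩)
    (T.unit (gys_mul a) h1 h3 h4) h3 (h0 _ h2)
  rwa [sum_nr] at this

end pbt

end Vale.Agent.P275MM
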