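import Vale.Agent.P275MB.Iso
import Vale.Agent.P275MO.Props
import Vale.Agent.P275CC.Hom
import Vale.Agent.P275Z.Ty

/-!
# P275, block MM: systems of families, universal bundles: definitions
-/

set_option linter.all false

open scoped Topology Matrix.Norms.Operator
open Set Filter Metric Matrix
open Vale.Agent.P275GC Vale.Agent.P275GC.At Vale.Agent.P275MO
open Vale.Agent.P275NA (Fm Cy Mn)
open P275CC

noncomputable section

namespace Vale.Agent.P275MM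

variable {C : Type} [TopologicalSpace C] {n : ℕ} {A : At C} {l : Cy A ℂ} {τ τ' : Ty n}
  {i j k : Fin A.N} {c : C} {z z' z'' : Dat C A.N n} {φ ψ : Fm A (Mn n)} {h h' : Mn n}
  {H H' : Subalgebra ℂ (Mn n)} {q q' : Submodule ℂ (Mn n)}

/-- the unit discs -/
def Dc (A : At C) (i : Fin A.N) : Set C := {c | c ∈ (A.e i).source ∧ ‖A.e i c‖ < 1}

theorem Dc_open (i : Fin A.N) : IsOpen (Dc A i) := by
  have := (A.e i).continuousOn.isOpen_inter_preimage (A.e i).open_source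
    (isOpen_ball (x := (0 : ℂ)) (ε := 1))
  simpa only [Dc, mem_ball_zero_iff, inter_def, mem_preimage] using this

theorem Dc_cov (A : At C) (c : C) : ∃ i, c ∈ Dc A i := A.cov c

theorem Dc_ct (i : Fin A.N) : ContinuousOn (A.e i) (Dc A i) :=
  (A.e i).continuousOn.mono fun _ a => a.1

section
variable {r : ℝ} (h1 : 1 < r) (h2 : r ≤ A.R)

theorem Dc_ball (h1 : 1 < r) (a : c ∈ Dc A i) : A.e i c ∈ ball (0 : ℂ) r :=
  mem_ball_zero_iff.2 (a.2.trans h1)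

theorem Dc_src (a : c ∈ Dc A i) : c ∈ ((A.res r h1 h2).e i).source := ⟨a.1, Dc_ball h1 a⟩

theorem Dc_O (a : c ∈ Dc A i) (b : c ∈ Dc A j) : A.e i c ∈ (A.res r h1 h2).O i j :=
  mem_O (A := A.res r h1 h2) (Dc_src h1 h2 a) (Dc_src h1 h2 b)

end

/-- good on discs of some radius -/
def Gd (A : At C) (l : Cy A ℂ) (z : Dat C A.N n) : Prop :=
  ∃ (r : ℝ) (h1 : 1 < r) (h2 : r ≤ A.R), Good (A.res r h1 h2) l z

theorem Gd.of (o : IsOb A l q z) : Gd A l z := by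
  obtain ⟨⟨r, a, b, g, -⟩, -⟩ := o
  exact ⟨r, a, b, g⟩

theorem Gd.mul (g : Gd A l z) (a : c ∈ Dc A i) (b : c ∈ Dc A j) (d : c ∈ Dc A k) :
    z.g i j (A.e i c) * z.g j k (A.e j c) = z.g i k (A.e i c) := by
  obtain ⟨r, h1, h2, g⟩ := g
  rw [g.cc.mul i j k _ (Dc_O h1 h2 a b) (Dc_O h1 h2 a d), res_tr, tr_e a.1]

theorem Gd.one (g : Gd A l z) (a : c ∈ Dc A i) : z.g i i (A.e i c) = 1 := by
  obtain ⟨r, h1, h2, g⟩ := g
  exact g.cc.one i _ (Dc_ball h1 a)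

theorem Gd.det (g : Gd A l z) (a : c ∈ Dc A i) (b : c ∈ Dc A j) :
    (z.g i j (A.e i c)).det ≠ 0 := by
  have := congrArg Matrix.det ((g.mul a b a).trans (g.one a))
  rw [Matrix.det_mul, det_one] at this
  exact left_ne_zero_of_mul_eq_one this

theorem Gd.fr (g : Gd A l z) (a : z.x ∈ Dc A i) : (z.σ i).det ≠ 0 := by
  obtain ⟨r, h1, h2, g⟩ := g
  exact g.fr i (Dc_src h1 h2 a)

theorem Gd.frc (g : Gd A l z) (a : z.x ∈ Dc A i) (b : z.x ∈ Dc A j) :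
    z.σ i = z.g i j (A.e i z.x) * z.σ j := by
  obtain ⟨r, h1, h2, g⟩ := g
  exact g.frc i j (Dc_src h1 h2 a) (Dc_src h1 h2 b)

theorem Gd.act (g : Gd A l z) (d : h.det ≠ 0) : Gd A l (z.act h) := by
  obtain ⟨r, h1, h2, g⟩ := g
  exact ⟨r, h1, h2, P275MB.Good.act (A := A.res r h1 h2) g d⟩

/-- an isomorphism on discs of some radius -/
def IB (A : At C) (z z' : Dat C A.N n) (φ : Fm A (Mn n)) (h : Mn n) : Prop :=
  ∃ (r : ℝ) (h1 : 1 < r) (h2 : r ≤ A.R), IsoBy (A.res r h1 h2) z z' φ h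

theorem iso_iff_ib : Iso A H z z' ↔ ∃ φ h, h ∈ H ∧ IB A z z' φ h :=
  ⟨fun ⟨r, a, b, φ, h, m, f⟩ => ⟨φ, h, m, r, a, b, f⟩,
    fun ⟨φ, h, m, r, a, b, f⟩ => ⟨r, a, b, φ, h, m, f⟩⟩

theorem IB.x (f : IB A z z' φ h) : z'.x = z.x := by
  obtain ⟨r, h1, h2, f⟩ := f
  exact f.x

theorem IB.law (f : IB A z z' φ h) (a : c ∈ Dc A i) (b : c ∈ Dc A j) :
    φ i (A.e i c) * z.g i j (A.e i c) = z'.g i j (A.e i c) * φ j (A.e j c) := by
  obtain ⟨r, h1, h2, f⟩ := f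
  rw [f.law i j _ (Dc_O h1 h2 a b), res_tr, tr_e a.1]

theorem IB.det (f : IB A z z' φ h) (a : c ∈ Dc A i) : (φ i (A.e i c)).det ≠ 0 := by
  obtain ⟨r, h1, h2, f⟩ := f
  exact f.det i _ (Dc_ball h1 a)

theorem IB.fr (f : IB A z z' φ h) (a : z.x ∈ Dc A i) : φ i (A.e i z.x) * z.σ i = z'.σ i * h := by
  obtain ⟨r, h1, h2, f⟩ := f
  exact f.fr i (Dc_src h1 h2 a)

theorem IB.det_h (g : Gd A l z) (f : IB A z z' φ h) : h.det ≠ 0 := by
  obtain ⟨i, a⟩ := Dc_cov A z.x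
  have := congrArg Matrix.det (f.fr a)
  rw [Matrix.det_mul, Matrix.det_mul] at this
  exact right_ne_zero_of_mul (this ▸ mul_ne_zero (f.det a) (g.fr a))

theorem IB.refl (z : Dat C A.N n) : IB A z z (fun _ _ => 1) 1 :=
  ⟨A.R, A.hR, le_rfl, P275MB.isoBy_refl (A := A.res A.R A.hR le_rfl) z⟩

theorem IB.act (z : Dat C A.N n) (h : Mn n) : IB A (z.act h) z (fun _ _ => 1) h :=
  ⟨A.R, A.hR, le_rfl, P275MB.isoBy_act (A := A.res A.R A.hR le_rfl) z h⟩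

theorem IB.trans (f : IB A z z' φ h) (f' : IB A z' z'' ψ h') :
    IB A z z'' (fun i w => ψ i w * φ i w) (h' * h) := by
  obtain ⟨r, a, b, f⟩ := f
  obtain ⟨r', a', b', f'⟩ := f'
  have d := lt_min a a'
  exact ⟨_, d, _, P275MB.IsoBy.trans (P275MB.IsoBy.mono f d (min_le_left _ _))
    (P275MB.IsoBy.mono f' d (min_le_right _ _))⟩

theorem IB.symm (g : Gd A l z) (f : IB A z z' φ h) : IB A z' z (fun i w => (φ i w)⁻¹) h⁻¹ := by
  obtain ⟨r, a, b, g⟩ := g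
  obtain ⟨r', a', b', f⟩ := f
  have d := lt_min a a'
  exact ⟨_, d, _, P275MB.IsoBy.symm (P275MB.Good.mono g d (min_le_left _ _))
    (P275MB.IsoBy.mono f d (min_le_right _ _))⟩

theorem IB.smul (f : IB A z z' φ h) {s : ℂ} (hs : s ≠ 0) :
    IB A z z' (fun i w => s • φ i w) (s • h) := by
  obtain ⟨r, a, b, f⟩ := f
  exact ⟨r, a, b, P275MB.IsoBy.smul f hs⟩

theorem IB.R (g : Gd A l z) (g' : Gd A l z') (f : IB A z z' φ h) : z'.R = h * z.R * h⁻¹ := by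
  obtain ⟨r, a, b, g⟩ := g
  obtain ⟨r', a', b', g'⟩ := g'
  obtain ⟨r'', a'', b'', f⟩ := f
  have d := lt_min (lt_min a a') a''
  exact P275MB.IsoBy.R (A := A.res _ d (((min_le_left _ _).trans (min_le_left _ _)).trans b))
    (P275MB.Good.mono g d ((min_le_left _ _).trans (min_le_left _ _)))
    (P275MB.Good.mono g' d ((min_le_left _ _).trans (min_le_right _ _)))
    (P275MB.IsoBy.mono f d (min_le_right _ _))

/-- changing the frames on both sides -/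
theorem IB.act₂ (g : Gd A l z') (f : IB A z z' φ h) (u : Mn n) {v : Mn n} (hv : v.det ≠ 0) :
    IB A (z.act u) (z'.act v) φ (v⁻¹ * (h * u)) := by
  simpa using ((IB.act z u).trans f).trans ((IB.act z' v).symm (g.act hv))

/-- the facts on the moduli problem which are used in this block -/
class Hy (A : At C) (l : Cy A ℂ) (n : ℕ) : Prop where
  t2 : T2Space C
  pos : 0 < n
  simp : ∀ r h1 h2, SIMP n (A.res r h1 h2) l
  isoc : ∀ r h1 h2, ISOC n (A.res r h1 h2) l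
  kur : KUR n A l
  nice : NICE n A l

instance [hy : Hy A l n] : Nc (Mod A l τ) := ⟨(hy.nice τ).2.1, (hy.nice τ).1, (hy.nice τ).2.2⟩

theorem IB.aut [hy : Hy A l n] (o : IsOb A l q z) (f : IB A z z φ h) :
    ∃ s : ℂ, s ≠ 0 ∧ h = s • 1 ∧ ∀ i, ∀ c ∈ Dc A i, φ i (A.e i c) = s • 1 := by
  have := hy.t2
  obtain ⟨r, a, b, g⟩ := Gd.of o
  obtain ⟨r', a', b', f'⟩ := id f
  have d := lt_min a a'
  have g1 := P275MB.Good.mono g d (min_le_left _ _)
  have f1 := P275MB.IsoBy.mono f' d (min_le_right _ _)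
  have s1 := P275MB.IsOb.stab o g1
  obtain ⟨s, hs⟩ := (hy.simp _ d _ z z φ g1 g1 s1 s1 f1.toHom).2 rfl
  have e : ∀ i, ∀ c ∈ Dc A i, φ i (A.e i c) = s • 1 := fun i c a => hs i _ (Dc_ball d a)
  obtain ⟨i, hi⟩ := Dc_cov A z.x
  refine ⟨s, ?_, ?_, e⟩
  · rintro rfl
    have := f.det hi
    have : Nonempty (Fin n) := ⟨⟨0, hy.pos⟩⟩
    rw [e i _ hi, zero_smul, det_zero] at *
    contradiction
  · have := f.fr hi
    rw [e i _ hi, smul_mul_assoc, one_mul] at this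
    rw [← nonsing_inv_mul_cancel_left _ h ((Gd.of o).fr hi).isUnit, ← this, mul_smul_comm,
      nonsing_inv_mul _ ((Gd.of o).fr hi).isUnit]

/-- isomorphisms are unique up to a scalar -/
theorem IB.uniq [Hy A l n] (o : IsOb A l q z) (f : IB A z z' φ h) (f' : IB A z z' ψ h') :
    ∃ s : ℂ, s ≠ 0 ∧ h' = s • h ∧ ∀ i, ∀ c ∈ Dc A i, ψ i (A.e i c) = s • φ i (A.e i c) := by
  obtain ⟨s, hs, e, e'⟩ := IB.aut o (f'.trans (f.symm (Gd.of o)))
  refine ⟨s, hs, ?_, fun i c a => ?_⟩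
  · rw [← mul_nonsing_inv_cancel_left _ h' (f.det_h (Gd.of o)).isUnit, e, mul_smul_comm, mul_one]
  · rw [← mul_nonsing_inv_cancel_left _ (ψ i _) (f.det a).isUnit, e' i c a, mul_smul_comm,
      mul_one]

section fam

variable {T T' : Type} [TopologicalSpace T] [TopologicalSpace T'] {F F' F'' : T → Dat C A.N n}
  {V V' : Set T} {t : T} {Φ Ψ : T → Fm A (Mn n)} {u v : T → Mn n}

theorem famOn_congr (f : FamOn A l F V) (e : ∀ s ∈ V, F' s = F s) : FamOn A l F' V :=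
  ⟨fun t a => e t a ▸ f.good t a, f.lam.congr fun t a => by rw [e t a],
    f.x.congr fun t a => by rw [e t a], f.R.congr fun t a => by rw [e t a],
    fun i j => (f.g i j).congr fun p a => by rw [e _ a.1],
    fun i => ((f.a i).mono (t := {p : T × ℂ | p.1 ∈ V ∧ p.2 ∈ off A (F' p.1).x i})
      fun p a => ⟨a.1, e _ a.1 ▸ a.2⟩).congr fun p a => by rw [e _ a.1],
    fun i => ((f.σ i).mono (t := {t | t ∈ V ∧ (F' t).x ∈ (A.e i).source})
      fun p a => ⟨a.1, e _ a.1 ▸ a.2⟩).congr fun p a => by rw [e _ a.1]⟩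

theorem famAt_congr (f : FamAt A l F t) (e : ∀ᶠ s in 𝓝 t, F' s = F s) : FamAt A l F' t := by
  obtain ⟨r, h1, h2, V, hV, f⟩ := f
  exact ⟨r, h1, h2, _, inter_mem hV e,
    famOn_congr (A := A.res r h1 h2) (P275MB.FamOn.sub f inter_subset_left) fun _ a => a.2⟩

theorem famAt_gd (f : FamAt A l F t) : Gd A l (F t) := by
  obtain ⟨r, h1, h2, V, hV, f⟩ := f
  exact ⟨r, h1, h2, f.good t (mem_of_mem_nhds hV)⟩

theorem famAt_act (f : FamAt A l F t) (hu : ∀ᶠ s in 𝓝 t, ContinuousAt u s)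
    (d : (u t).det ≠ 0) : FamAt A l (fun s => (F s).act (u s)) t := by
  obtain ⟨r, h1, h2, V, hV, f⟩ := f
  have d' : ∀ᶠ s in 𝓝 t, (u s).det ≠ 0 :=
    (continuous_id.matrix_det.continuousAt.comp hu.self_of_nhds).eventually_ne d
  exact ⟨r, h1, h2, _, inter_mem hV (hu.and d'), P275MB.FamOn.act (A := A.res r h1 h2)
    (P275MB.FamOn.sub f inter_subset_left) (fun _ a => a.2.1.continuousWithinAt) fun _ a => a.2.2⟩

/-- a map which is locally given by a family is continuous -/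
theorem contAt_of_fam {f : T → Mod A l τ} (fa : FamAt A l F t)
    (e : ∀ᶠ s in 𝓝 t, ∃ o : IsOb A l τ.q (F s), Ob.pt ⟨F s, o⟩ = f s) : ContinuousAt f t := by
  classical
  obtain ⟨o, -⟩ := e.self_of_nhds
  let G : T → Ob A l τ := fun s => if a : IsOb A l τ.q (F s) then ⟨F s, a⟩ else ⟨F t, o⟩
  have hG : ∀ s (a : IsOb A l τ.q (F s)), G s = ⟨F s, a⟩ := fun s a => dif_pos a
  have h1 : FamAt A l (fun s => (G s).1) t := famAt_congr fa (e.mono fun s ⟨a, _⟩ => by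
    rw [hG s a])
  exact h1.continuousAt.congr (e.mono fun s ⟨a, b⟩ => (congrArg Ob.pt (hG s a)).trans b)

theorem ct_R (f : ∀ t ∈ V, FamAt A l F t) : ContinuousOn (fun t => (F t).R) V := fun t a => by
  obtain ⟨r, h1, h2, W, hW, f⟩ := f t a
  exact (f.R.continuousAt hW).continuousWithinAt

theorem ct_x (f : ∀ t ∈ V, FamAt A l F t) : ContinuousOn (fun t => (F t).x) V := fun t a => by
  obtain ⟨r, h1, h2, W, hW, f⟩ := f t a
  exact (f.x.continuousAt hW).continuousWithinAt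

theorem ct_σ (f : ∀ t ∈ V, FamAt A l F t) (i : Fin A.N) :
    ContinuousOn (fun t => (F t).σ i) {t | t ∈ V ∧ (F t).x ∈ Dc A i} := fun t a => by
  obtain ⟨r, h1, h2, W, hW, f⟩ := f t a.1
  refine (f.σ i t ⟨mem_of_mem_nhds hW, Dc_src h1 h2 a.2⟩).mono_of_mem_nhdsWithin ?_
  filter_upwards [mem_nhdsWithin_of_mem_nhds hW, self_mem_nhdsWithin] with s b d
  exact ⟨b, Dc_src h1 h2 d.2⟩

theorem ct_g (f : ∀ t ∈ V, FamAt A l F t) (i j : Fin A.N) :
    ContinuousOn (fun p : T × C => (F p.1).g i j (A.e i p.2)) (V ×ˢ (Dc A i ∩ Dc A j)) :=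
  fun p a => by
  obtain ⟨r, h1, h2, W, hW, f⟩ := f p.1 a.1
  have c1 : ContinuousOn (fun p : T × C => (F p.1).g i j (A.e i p.2)) (W ×ˢ (Dc A i ∩ Dc A j)) :=
    (f.g i j).comp (f := fun p : T × C => (p.1, A.e i p.2))
      (continuousOn_fst.prodMk ((Dc_ct i).comp continuousOn_snd fun _ b => b.2.1))
      fun _ b => ⟨b.1, Dc_O h1 h2 b.2.1 b.2.2⟩
  refine (c1 p ⟨mem_of_mem_nhds hW, a.2⟩).mono_of_mem_nhdsWithin ?_
  filter_upwards [mem_nhdsWithin_of_mem_nhds (continuousAt_fst hW), self_mem_nhdsWithin]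
    with s b d
  exact ⟨b, d.2⟩

/-- a continuous family of isomorphisms -/
structure Lf (A : At C) (H : Subalgebra ℂ (Mn n)) (F F' : T → Dat C A.N n)
    (Φ : T → Fm A (Mn n)) (u : T → Mn n) (V : Set T) : Prop where
  mem : ∀ s ∈ V, u s ∈ H
  iso : ∀ s ∈ V, IB A (F s) (F' s) (Φ s) (u s)
  cΦ : ∀ i, ContinuousOn (fun p : T × C => Φ p.1 i (A.e i p.2)) (V ×ˢ Dc A i)
  cu : ContinuousOn u V

theorem Lf.mono (f : Lf A H F F' Φ u V) (e : V' ⊆ V) : Lf A H F F' Φ u V' :=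
  ⟨fun s a => f.mem s (e a), fun s a => f.iso s (e a),
    fun i => (f.cΦ i).mono (prod_mono_left e), f.cu.mono e⟩

theorem Lf.ty (f : Lf A H F F' Φ u V) (e : H ≤ H') : Lf A H' F F' Φ u V :=
  ⟨fun s a => e (f.mem s a), f.iso, f.cΦ, f.cu⟩

theorem Lf.comp (f : Lf A H F F' Φ u V) {g : T' → T} {W : Set T'} (hg : ContinuousOn g W)
    (m : MapsTo g W V) :
    Lf A H (fun s => F (g s)) (fun s => F' (g s)) (fun s => Φ (g s)) (fun s => u (g s)) W :=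
  ⟨fun s a => f.mem _ (m a), fun s a => f.iso _ (m a),
    fun i => (f.cΦ i).comp (f := fun p : T' × C => (g p.1, p.2))
      ((hg.comp continuousOn_fst fun _ a => a.1).prodMk continuousOn_snd) fun _ a => ⟨m a.1, a.2⟩,
    f.cu.comp hg m⟩

theorem Lf.refl (H : Subalgebra ℂ (Mn n)) (F : T → Dat C A.N n) (V : Set T) :
    Lf A H F F (fun _ _ _ => 1) (fun _ => 1) V :=
  ⟨fun _ _ => one_mem _, fun _ _ => IB.refl _, fun _ => continuousOn_const, continuousOn_const⟩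

theorem Lf.trans (f : Lf A H F F' Φ u V) (f' : Lf A H F' F'' Ψ v V) :
    Lf A H F F'' (fun s i w => Ψ s i w * Φ s i w) (fun s => v s * u s) V :=
  ⟨fun s a => mul_mem (f'.mem s a) (f.mem s a), fun s a => (f.iso s a).trans (f'.iso s a),
    fun i => ctOn_mul (f'.cΦ i) (f.cΦ i), ctOn_mul f'.cu f.cu⟩

theorem Lf.symm (g : ∀ s ∈ V, Gd A l (F s)) (f : Lf A H F F' Φ u V) :
    Lf A H F' F (fun s i w => (Φ s i w)⁻¹) (fun s => (u s)⁻¹) V :=
  ⟨fun s a => P275MB.inv_mem_alg (f.mem s a) ((f.iso s a).det_h (g s a)),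
    fun s a => (f.iso s a).symm (g s a),
    fun i => ctOn_inv (f.cΦ i) fun p a => (f.iso _ a.1).det a.2,
    ctOn_inv f.cu fun s a => (f.iso s a).det_h (g s a)⟩

/-- isomorphic families are locally continuously isomorphic -/
theorem exists_lf [hy : Hy A l n] (f : FamAt A l F t) (f' : FamAt A l F' t)
    (e : ∀ᶠ s in 𝓝 t, IsOb A l q (F s) ∧ IsOb A l q' (F' s) ∧ Iso A H (F s) (F' s)) :
    ∃ V ∈ 𝓝 t, ∃ Φ u, Lf A H F F' Φ u V := by
  have := hy.t2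
  obtain ⟨r, a, b, W, hW, f⟩ := f
  obtain ⟨r', a', b', W', hW', f'⟩ := f'
  have d := lt_min a a'
  have m := inter_mem (inter_mem hW hW') e
  have f1 := P275MB.FamOn.sub (P275MB.FamOn.mono f d (min_le_left _ _))
    (V' := W ∩ W' ∩ _) (fun _ a => a.1.1 : W ∩ W' ∩ {s | IsOb A l q (F s) ∧ IsOb A l q' (F' s) ∧
      Iso A H (F s) (F' s)} ⊆ W)
  have f2 := P275MB.FamOn.sub (P275MB.FamOn.mono f' d (min_le_right _ _))
    (V' := W ∩ W' ∩ _) (fun _ a => a.1.2 : W ∩ W' ∩ {s | IsOb A l q (F s) ∧ IsOb A l q' (F' s) ∧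
      Iso A H (F s) (F' s)} ⊆ W')
  obtain ⟨V, hV, Φ, u, -, cu, cΦ, g⟩ := hy.isoc _ d _ H T F F' _ t f1 f2 (mem_of_mem_nhds m)
    fun s a => ⟨P275MB.IsOb.stab a.2.1 (f1.good s a), P275MB.IsOb.stab a.2.2.1 (f2.good s a),
      P275MB.iso_res.2 a.2.2.2⟩
  rw [nhdsWithin_eq_nhds.2 m] at hV
  exact ⟨V, hV, Φ, u, fun s a => (g s a).1, fun s a => ⟨_, d, _, (g s a).2⟩,
    fun i => (cΦ i).comp (f := fun p : T × C => (p.1, A.e i p.2))
      (continuousOn_fst.prodMk ((Dc_ct i).comp continuousOn_snd fun _ b => b.2))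
      fun _ b => ⟨b.1, Dc_ball d b.2⟩, cu⟩

end fam

/-- a character of the group of units of `H`, homogeneous of degree `e` -/
structure Chr (H : Subalgebra ℂ (Mn n)) where
  e : ℕ
  χ : Mn n → ℂ
  ct : Continuous χ
  one : χ 1 = 1
  mul : ∀ g ∈ H, ∀ h ∈ H, χ (g * h) = χ g * χ h
  smul : ∀ (s : ℂ) (h : Mn n), χ (s • h) = s ^ e * χ h

theorem Chr.ne (χ : Chr H) (m : h ∈ H) (d : h.det ≠ 0) : χ.χ h ≠ 0 := by
  have := χ.mul h m _ (P275MB.inv_mem_alg m d)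
  rw [mul_nonsing_inv _ d.isUnit, χ.one] at this
  exact left_ne_zero_of_mul_eq_one this.symm

/-- the determinant -/
def Chr.det (H : Subalgebra ℂ (Mn n)) : Chr H :=
  ⟨n, Matrix.det, continuous_id.matrix_det, det_one, fun g _ h _ => Matrix.det_mul g h, fun s h => by
    rw [det_smul, Fintype.card_fin]⟩

/-- a diagonal entry -/
def Chr.ent (a : Fin n) (hH : ∀ g ∈ H, ∀ h ∈ H, (g * h) a a = g a a * h a a) : Chr H :=
  ⟨1, fun h => h a a, continuous_id.matrix_elem a a, one_apply_eq a, hH, fun s h => by simp⟩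

/-- a power -/
def Chr.pow (χ : Chr H) (m : ℕ) : Chr H :=
  ⟨χ.e * m, fun h => χ.χ h ^ m, χ.ct.pow m, by rw [χ.one, one_pow],
    fun g a h b => by rw [χ.mul g a h b, mul_pow], fun s h => by rw [χ.smul, mul_pow, pow_mul]⟩

/-- a product -/
def Chr.times (χ χ' : Chr H) : Chr H :=
  ⟨χ.e + χ'.e, fun h => χ.χ h * χ'.χ h, χ.ct.mul χ'.ct, by rw [χ.one, χ'.one, one_mul],
    fun g a h b => by rw [χ.mul g a h b, χ'.mul g a h b]; ring,
    fun s h => by rw [χ.smul, χ'.smul, pow_add]; ring⟩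

/-- the restriction to a subalgebra -/
def Chr.res (χ : Chr H') (e : H ≤ H') : Chr H :=
  ⟨χ.e, χ.χ, χ.ct, χ.one, fun g a h b => χ.mul g (e a) h (e b), χ.smul⟩

/-- a map to the moduli space with local families and isomorphisms between them -/
structure Sys (A : At C) (l : Cy A ℂ) (τ : Ty n) (T : Type) [TopologicalSpace T] :
    Type 1 extends Cov T where
  f : T → Mod A l τ
  F : ι → T → Dat C A.N n
  fam : ∀ a, ∀ t ∈ U a, FamAt A l (F a) t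
  ob : ∀ a, ∀ t ∈ U a, IsOb A l τ.q (F a t)
  pt : ∀ a t (m : t ∈ U a), Ob.pt ⟨F a t, ob a t m⟩ = f t
  Φ : ι → ι → T → Fm A (Mn n)
  h : ι → ι → T → Mn n
  lf : ∀ a b, Lf A τ.H (F b) (F a) (Φ a b) (h a b) (U a ∩ U b)

namespace Sys

variable {T T' : Type} [TopologicalSpace T] [TopologicalSpace T'] (S : Sys A l τ T)
  {a b d : S.ι} {t : T}

theorem cont : Continuous S.f := continuous_iff_continuousAt.2 fun t => by
  obtain ⟨a, m⟩ := S.cov t
  exact contAt_of_fam (S.fam a t m) (eventually_of_mem ((S.op a).mem_nhds m) fun s b =>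
    ⟨S.ob a s b, S.pt a s b⟩)

/-- the map to the moduli space -/
def map : C(T, Mod A l τ) := ⟨S.f, S.cont⟩

theorem gd (m : t ∈ S.U a) : Gd A l (S.F a t) := Gd.of (S.ob a t m)

theorem x_eq (m : t ∈ S.U a) : (S.F a t).x = (S.f t).x := by rw [← S.pt a t m]; rfl

theorem mem (ma : t ∈ S.U a) (mb : t ∈ S.U b) : S.h a b t ∈ τ.H := (S.lf a b).mem t ⟨ma, mb⟩

theorem ib (ma : t ∈ S.U a) (mb : t ∈ S.U b) : IB A (S.F b t) (S.F a t) (S.Φ a b t) (S.h a b t) :=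
  (S.lf a b).iso t ⟨ma, mb⟩

theorem det_h (ma : t ∈ S.U a) (mb : t ∈ S.U b) : (S.h a b t).det ≠ 0 :=
  (S.ib ma mb).det_h (S.gd mb)

/-- pull back -/
def pb (g : C(T', T)) : Sys A l τ T' where
  toCov := S.toCov.pb g
  f t := S.f (g t)
  F a t := S.F a (g t)
  fam a t m := P275MB.FamAt.comp (S.fam a _ m) (Eventually.of_forall fun _ =>
    g.continuous.continuousAt)
  ob a t m := S.ob a _ m
  pt a t m := S.pt a _ m
  Φ a b t := S.Φ a b (g t)
  h a b t := S.h a b (g t)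
  lf a b := (S.lf a b).comp g.continuous.continuousOn fun _ m => m

/-- change of the type -/
def ty (hH : τ.H ≤ τ'.H) (hq : τ.q ≤ τ'.q) : Sys A l τ' T where
  toCov := S.toCov
  f t := P275MB.ty hH hq (S.f t)
  F := S.F
  fam := S.fam
  ob a t m := ⟨(S.ob a t m).1, hq (S.ob a t m).2⟩
  pt a t m := by rw [← S.pt a t m]; rfl
  Φ := S.Φ
  h := S.h
  lf a b := (S.lf a b).ty hH

/-- one family -/
def one (F : T → Ob A l τ) (fam : ∀ t, FamAt A l (fun s => (F s).1) t) : Sys A l τ T where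
  ι := Unit
  U _ := univ
  op _ := isOpen_univ
  cov t := ⟨(), mem_univ t⟩
  f t := (F t).pt
  F _ t := (F t).1
  fam _ t _ := fam t
  ob _ t _ := (F t).2
  pt _ _ _ := rfl
  Φ _ _ _ _ _ := 1
  h _ _ _ := 1
  lf _ _ := Lf.refl _ _ _

variable [hy : Hy A l n]

theorem cc (ma : t ∈ S.U a) (mb : t ∈ S.U b) (md : t ∈ S.U d) :
    ∃ s : ℂ, s ≠ 0 ∧ S.h a b t * S.h b d t = s • S.h a d t ∧ ∀ i, ∀ c ∈ Dc A i,
      S.Φ a b t i (A.e i c) * S.Φ b d t i (A.e i c) = s • S.Φ a d t i (A.e i c) :=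
  IB.uniq (S.ob d t md) (S.ib ma md) ((S.ib mb md).trans (S.ib ma mb))

theorem self (ma : t ∈ S.U a) : ∃ s : ℂ, s ≠ 0 ∧ S.h a a t = s • 1 ∧ ∀ i, ∀ c ∈ Dc A i,
    S.Φ a a t i (A.e i c) = s • 1 := IB.aut (S.ob a t ma) (S.ib ma ma)

/-- the cover of `T × C` -/
def cv : Cov (T × C) where
  ι := S.ι × Fin A.N
  U p := S.U p.1 ×ˢ Dc A p.2
  op p := (S.op p.1).prod (Dc_open p.2)
  cov p := by
    obtain ⟨a, m⟩ := S.cov p.1
    obtain ⟨i, m'⟩ := Dc_cov A p.2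
    exact ⟨(a, i), m, m'⟩

/-- the transition matrices of the universal bundle -/
def G (p p' : S.ι × Fin A.N) (y : T × C) : Mn n :=
  S.Φ p.1 p'.1 y.1 p.2 (A.e p.2 y.2) * (S.F p'.1 y.1).g p.2 p'.2 (A.e p.2 y.2)

theorem ct_G (p p' : S.ι × Fin A.N) : ContinuousOn (S.G p p') (S.cv.U p ∩ S.cv.U p') :=
  ctOn_mul (((S.lf p.1 p'.1).cΦ p.2).mono fun _ m => ⟨⟨m.1.1, m.2.1⟩, m.1.2⟩)
    ((ct_g (S.fam p'.1) p.2 p'.2).mono fun _ m => ⟨m.2.1, m.1.2, m.2.2⟩)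

theorem det_G {p p' : S.ι × Fin A.N} {y : T × C} (m : y ∈ S.cv.U p) (m' : y ∈ S.cv.U p') :
    (S.G p p' y).det ≠ 0 := by
  rw [G, Matrix.det_mul]
  exact mul_ne_zero ((S.ib m.1 m'.1).det m.2) ((S.gd m'.1).det m.2 m'.2)

theorem cc_G {p p' p'' : S.ι × Fin A.N} {y : T × C} (m : y ∈ S.cv.U p) (m' : y ∈ S.cv.U p')
    (m'' : y ∈ S.cv.U p'') : ∃ s : ℂ, s ≠ 0 ∧
      S.h p.1 p'.1 y.1 * S.h p'.1 p''.1 y.1 = s • S.h p.1 p''.1 y.1 ∧
      S.G p p' y * S.G p' p'' y = s • S.G p p'' y := by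
  obtain ⟨s, hs, e, e'⟩ := S.cc m.1 m'.1 m''.1
  refine ⟨s, hs, e, ?_⟩
  rw [G, G, G, mul_assoc, ← mul_assoc ((S.F _ _).g _ _ _), ← (S.ib m'.1 m''.1).law m.2 m'.2,
    mul_assoc, (S.gd m''.1).mul m.2 m'.2 m''.2, ← mul_assoc, e' _ _ m.2, smul_mul_assoc]

/-- the universal bundle -/
def tb : TB (T × C) (Fin n) where
  toCov := S.cv
  g := S.G
  ct := S.ct_G
  nz _ _ _ := S.det_G
  cc _ _ _ _ m m' m'' := let ⟨s, _, _, e⟩ := S.cc_G m m' m''; ⟨s, e⟩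

/-- its fibre at the pole, in the given frames -/
def fr : TB T (Fin n) where
  toCov := S.toCov
  g := S.h
  ct a b := (S.lf a b).cu
  nz _ _ _ := S.det_h
  cc _ _ _ _ m m' m'' := let ⟨s, _, e, _⟩ := S.cc m m' m''; ⟨s, e⟩

theorem chr_cc (χ : Chr τ.H) (ma : t ∈ S.U a) (mb : t ∈ S.U b) (md : t ∈ S.U d) {s : ℂ}
    (e : S.h a b t * S.h b d t = s • S.h a d t) :
    χ.χ (S.h a b t) * χ.χ (S.h b d t) = s ^ χ.e * χ.χ (S.h a d t) := by
  rw [← χ.mul _ (S.mem ma mb) _ (S.mem mb md), e, χ.smul]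

theorem chr_ne (χ : Chr τ.H) (ma : t ∈ S.U a) (mb : t ∈ S.U b) : χ.χ (S.h a b t) ≠ 0 :=
  χ.ne (S.mem ma mb) (S.det_h ma mb)

theorem ct_chr (χ : Chr τ.H) (a b : S.ι) :
    ContinuousOn (fun t => χ.χ (S.h a b t)) (S.U a ∩ S.U b) :=
  χ.ct.comp_continuousOn (S.lf a b).cu

/-- the line bundle of the quotient of two characters of the same degree -/
def lb (χ χ' : Chr τ.H) (he : χ.e = χ'.e) : LB T where
  toCov := S.toCov
  g a b t := χ.χ (S.h a b t) / χ'.χ (S.h a b t)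
  ct a b := (S.ct_chr χ a b).div (S.ct_chr χ' a b) fun _ m => S.chr_ne χ' m.1 m.2
  id a t m := by
    obtain ⟨s, hs, e, -⟩ := S.self m
    rw [e, χ.smul, χ'.smul, χ.one, χ'.one, he, div_self (by simpa using fun a => (hs a).elim)]
  cc a b d t ma mb md := by
    obtain ⟨s, hs, e, -⟩ := S.cc ma mb md
    rw [div_mul_div_comm, S.chr_cc χ ma mb md e, S.chr_cc χ' ma mb md e, he,
      mul_div_mul_left _ _ (pow_ne_zero _ hs)]

/-- the fibre at the pole, normalised by a character of degree one -/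
def fb (χ : Chr τ.H) (he : χ.e = 1) : VB T (Fin n) where
  toCov := S.toCov
  g a b t := (χ.χ (S.h a b t))⁻¹ • S.h a b t
  ct a b := ((S.ct_chr χ a b).inv₀ fun _ m => S.chr_ne χ m.1 m.2).smul (S.lf a b).cu
  id a t m := by
    obtain ⟨s, hs, e, -⟩ := S.self m
    rw [e, χ.smul, χ.one, he, pow_one, mul_one, smul_smul, inv_mul_cancel₀ hs, one_smul]
  cc a b d t ma mb md := by
    obtain ⟨s, hs, e, -⟩ := S.cc ma mb md
    rw [smul_mul_smul_comm, ← mul_inv, S.chr_cc χ ma mb md e, e, he, pow_one, smul_smul, mul_inv,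
      mul_right_comm, inv_mul_cancel₀ hs, one_mul]

/-- the universal bundle, normalised by a character of degree one -/
def vb (χ : Chr τ.H) (he : χ.e = 1) : VB (T × C) (Fin n) where
  toCov := S.cv
  g p p' y := (χ.χ (S.h p.1 p'.1 y.1))⁻¹ • S.G p p' y
  ct p p' := (((S.ct_chr χ p.1 p'.1).comp continuousOn_fst fun _ m => ⟨m.1.1, m.2.1⟩).inv₀
    fun _ m => S.chr_ne χ m.1.1 m.2.1).smul (S.ct_G p p')
  id p y m := by
    obtain ⟨s, hs, e, e'⟩ := S.self m.1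
    have e2 : S.G p p y = s • 1 := by
      rw [← mul_one (s • (1 : Mn n)), ← e' _ _ m.2, ← (S.gd m.1).one m.2]
      rfl
    rw [e, e2, χ.smul, χ.one, he, pow_one, mul_one,
      smul_smul, inv_mul_cancel₀ hs, one_smul]
  cc p p' p'' y m m' m'' := by
    obtain ⟨s, hs, e, e'⟩ := S.cc_G m m' m''
    rw [smul_mul_smul_comm, ← mul_inv, S.chr_cc χ m.1 m'.1 m''.1 e, e', he, pow_one, smul_smul,
      mul_inv, mul_right_comm, inv_mul_cancel₀ hs, one_mul]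

theorem pb_tb (g : C(T', T)) : (S.pb g).tb = S.tb.pb (g.prodMap (ContinuousMap.id C)) := rfl

theorem pb_fr (g : C(T', T)) : (S.pb g).fr = S.fr.pb g := rfl

theorem pb_lb (g : C(T', T)) (χ χ' : Chr τ.H) (he) :
    (S.pb g).lb χ χ' he = (S.lb χ χ' he).pb g := rfl

theorem pb_fb (g : C(T', T)) (χ : Chr τ.H) (he) : (S.pb g).fb χ he = (S.fb χ he).pb g := rfl

theorem pb_vb (g : C(T', T)) (χ : Chr τ.H) (he) :
    (S.pb g).vb χ he = (S.vb χ he).pb (g.prodMap (ContinuousMap.id C)) := rfl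

theorem ty_tb (hH : τ.H ≤ τ'.H) (hq : τ.q ≤ τ'.q) : (S.ty hH hq).tb = S.tb := rfl

theorem ty_fr (hH : τ.H ≤ τ'.H) (hq : τ.q ≤ τ'.q) : (S.ty hH hq).fr = S.fr := rfl

theorem ty_lb (hH : τ.H ≤ τ'.H) (hq : τ.q ≤ τ'.q) (χ χ' : Chr τ'.H) (he) :
    (S.ty hH hq).lb χ χ' he = S.lb (χ.res hH) (χ'.res hH) he := rfl

theorem ty_fb (hH : τ.H ≤ τ'.H) (hq : τ.q ≤ τ'.q) (χ : Chr τ'.H) (he) :
    (S.ty hH hq).fb χ he = S.fb (χ.res hH) he := rfl

theorem ty_vb (hH : τ.H ≤ τ'.H) (hq : τ.q ≤ τ'.q) (χ : Chr τ'.H) (he) :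
    (S.ty hH hq).vb χ he = S.vb (χ.res hH) he := rfl

end Sys

end Vale.Agent.P275MM
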