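import Vale.Agent.P275MM.Defs

/-!
# P275, block MM: existence and comparison of systems of families
-/

set_option linter.all false

open scoped Topology Matrix.Norms.Operator
open Set Filter Metric Matrix
open Vale.Agent.P275GC Vale.Agent.P275GC.At Vale.Agent.P275MO
open Vale.Agent.P275NA (Fm Cy Mn)
open P275CC

noncomputable section

namespace Vale.Agent.P275MM

theorem star_ref {X ι : Type} [TopologicalSpace X] [ParacompactSpace X] [NormalSpace X]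
    (W : ι → Set X) (op : ∀ i, IsOpen (W i)) (cov : ∀ x, ∃ i, x ∈ W i)
    (P : ι → ι → Set X → Prop) (mono : ∀ i j s t, P i j s → t ⊆ s → P i j t)
    (emp : ∀ i j, P i j ∅) (loc : ∀ i j x, x ∈ W i → x ∈ W j → ∃ s ∈ 𝓝 x, P i j s) :
    ∃ (V : X → Set X) (r : X → ι), (∀ x, IsOpen (V x)) ∧ (∀ x, x ∈ V x) ∧
      (∀ x, V x ⊆ W (r x)) ∧ ∀ x y, P (r x) (r y) (V x ∩ V y) := by
  obtain ⟨W1, o1, c1, lf, s1⟩ := precise_refinement W op (iUnion_eq_univ_iff.2 cov)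
  obtain ⟨W2, c2, o2, s2⟩ := exists_iUnion_eq_closure_subset o1 lf.point_finite c1
  choose r hr using iUnion_eq_univ_iff.1 c2
  have lf2 : LocallyFinite fun i => closure (W2 i) := lf.subset s2
  have key : ∀ x, ∃ V ∈ 𝓝 x, V ⊆ W2 (r x) ∧ ∀ j, (V ∩ W2 j).Nonempty → P (r x) j V := by
    intro x
    have h1 := lf2.iInter_compl_mem_nhds (fun _ => isClosed_closure) x
    have h2 : ∀ j : {j | x ∈ closure (W2 j)}, ∃ s ∈ 𝓝 x, P (r x) j s := fun j =>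
      loc _ _ x (s1 _ (s2 _ (subset_closure (hr x)))) (s1 _ (s2 _ j.2))
    choose s hs hP using h2
    have : Finite {j | x ∈ closure (W2 j)} := (lf2.point_finite x).to_subtype
    refine ⟨_, inter_mem (inter_mem ((o2 _).mem_nhds (hr x)) h1) (iInter_mem.2 hs),
      fun _ a => a.1.1, fun j ⟨y, a, b⟩ => ?_⟩
    have hj : x ∈ closure (W2 j) := by
      by_contra hn
      exact mem_iInter₂.1 a.1.2 j hn (subset_closure b)
    exact mono _ _ _ _ (hP ⟨j, hj⟩) fun _ d => mem_iInter.1 d.2 ⟨j, hj⟩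
  choose V hV hs hP using key
  refine ⟨fun x => interior (V x), r, fun _ => isOpen_interior,
    fun x => mem_interior_iff_mem_nhds.2 (hV x),
    fun x => interior_subset.trans ((hs x).trans (subset_closure.trans ((s2 _).trans (s1 _)))),
    fun x y => ?_⟩
  rcases (interior (V x) ∩ interior (V y)).eq_empty_or_nonempty with e | ⟨w, a, b⟩
  · rw [e]
    exact emp _ _
  · exact mono _ _ _ _ (hP x (r y) ⟨w, interior_subset a, hs y (interior_subset b)⟩)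
      fun _ d => interior_subset d.1

theorem lb_iso_loc {X : Type} [TopologicalSpace X] (L L' : LB X) {κ : Type} (O : κ → Set X)
    (a : κ → L.ι) (b : κ → L'.ι) (f : κ → X → ℂ) (op : ∀ c, IsOpen (O c))
    (cov : ∀ x, ∃ c, x ∈ O c) (ha : ∀ c, O c ⊆ L.U (a c)) (hb : ∀ c, O c ⊆ L'.U (b c))
    (ct : ∀ c, ContinuousOn (f c) (O c))
    (law : ∀ c c' x, x ∈ O c → x ∈ O c' →
      f c x * L.g (a c) (a c') x = L'.g (b c) (b c') x * f c' x)
    (nz : ∀ c, ∀ x ∈ O c, f c x ≠ 0) : L.Iso L' := by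
  choose c hc using cov
  have key : ∀ c' i j x, x ∈ O c' → x ∈ L.U i → x ∈ L'.U j →
      L'.g j (b (c x)) x * f (c x) x * L.g (a (c x)) i x =
        L'.g j (b c') x * f c' x * L.g (a c') i x := by
    intro c' i j x h1 hi hj
    rw [← L.cc (a (c x)) (a c') i x (ha _ (hc x)) (ha _ h1) hi, ← mul_assoc,
      mul_assoc _ (f _ x), law _ _ x (hc x) h1, ← mul_assoc,
      L'.cc _ _ _ x hj (hb _ (hc x)) (hb _ h1)]
  refine ⟨fun p x => L'.g p.1 (b (c x)) x * f (c x) x * L.g (a (c x)) p.2 x,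
    ⟨fun p => ?_, fun p p' x m m' _ => ?_⟩, fun p x m => ?_⟩
  · refine ctOn_loc fun x hx => ⟨O (c x), op _, hc x,
      fun y => L'.g p.1 (b (c x)) y * f (c x) y * L.g (a (c x)) p.2 y, ?_, fun y m => ?_⟩
    · exact (((L'.ct _ _).mono fun y m => ⟨m.1.1.1, hb _ m.2⟩).mul
        ((ct _).mono fun y m => m.2)).mul ((L.ct _ _).mono fun y m => ⟨ha _ m.2, m.1.1.2⟩)
    · exact key _ _ _ y m.2 m.1.1.2 m.1.1.1
  · change L'.g p.1 (b (c x)) x * f (c x) x * L.g (a (c x)) p.2 x =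
      L'.g p.1 p'.1 x * L.g p'.2 p.2 x *
        (L'.g p'.1 (b (c x)) x * f (c x) x * L.g (a (c x)) p'.2 x)
    rw [← L'.cc p.1 p'.1 _ x m.1 m'.1 (hb _ (hc x)), ← L.cc _ p'.2 p.2 x (ha _ (hc x)) m'.2 m.2]
    ring
  · exact mul_ne_zero (mul_ne_zero (L'.ne m.1 (hb _ (hc x))) (nz _ _ (hc x)))
      (L.ne (ha _ (hc x)) m.2)

theorem lb_iso_refl {X : Type} [TopologicalSpace X] (L : LB X) : L.Iso L :=
  lb_iso_loc L L L.U (fun i => i) (fun i => i) (fun _ _ => 1) L.op L.cov (fun _ => subset_rfl)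
    (fun _ => subset_rfl) (fun _ => continuousOn_const) (fun _ _ _ _ _ => mul_comm _ _)
    fun _ _ _ => one_ne_zero

theorem det_adj {n : Type} [Fintype n] [DecidableEq n] {g : Matrix n n ℂ} (h : g.det ≠ 0) :
    (adj g).det ≠ 0 := by
  have := congrArg Matrix.det (adj_mul g g⁻¹)
  rw [mul_nonsing_inv _ h.isUnit, adj_one, det_one, Matrix.det_mul] at this
  exact left_ne_zero_of_mul_eq_one this.symm

variable {C : Type} [TopologicalSpace C] {n : ℕ} {A : At C} {l : Cy A ℂ} {τ τ' : Ty n}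
  {T T' : Type} [TopologicalSpace T] [TopologicalSpace T']

/-- local families without the isomorphisms -/
structure Pre (A : At C) (l : Cy A ℂ) (τ : Ty n) (T : Type) [TopologicalSpace T] :
    Type 1 extends Cov T where
  f : T → Mod A l τ
  F : ι → T → Dat C A.N n
  fam : ∀ a, ∀ t ∈ U a, FamAt A l (F a) t
  ob : ∀ a, ∀ t ∈ U a, IsOb A l τ.q (F a t)
  pt : ∀ a t (m : t ∈ U a), Ob.pt ⟨F a t, ob a t m⟩ = f t

/-- forget the isomorphisms -/
def Sys.pre (S : Sys A l τ T) : Pre A l τ T := ⟨S.toCov, S.f, S.F, S.fam, S.ob, S.pt⟩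

variable [hy : Hy A l n]

theorem Pre.lf (S S' : Pre A l τ T) (e : S.f = S'.f) {a : S.ι} {b : S'.ι} {t : T}
    (ma : t ∈ S.U a) (mb : t ∈ S'.U b) :
    ∃ V ∈ 𝓝 t, ∃ Φ u, Lf A τ.H (S.F a) (S'.F b) Φ u V :=
  exists_lf (S.fam a t ma) (S'.fam b t mb) (by
    filter_upwards [(S.op a).mem_nhds ma, (S'.op b).mem_nhds mb] with s m m'
    exact ⟨S.ob a s m, S'.ob b s m', P275MB.pt_eq_iff.1
      ((S.pt a s m).trans ((congrFun e s).trans (S'.pt b s m').symm))⟩)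

theorem Pre.exists_sys [Nc T] (P : Pre A l τ T) : ∃ (S : Sys A l τ T) (r : S.ι → P.ι),
    S.f = P.f ∧ ∀ a, S.U a ⊆ P.U (r a) ∧ S.F a = P.F (r a) := by
  obtain ⟨V, r, o, m, s, h⟩ := star_ref P.U P.op P.cov
    (fun a b V => ∃ Φ u, Lf A τ.H (P.F b) (P.F a) Φ u V)
    (fun _ _ _ _ ⟨Φ, u, f⟩ e => ⟨Φ, u, f.mono e⟩)
    (fun _ _ => ⟨fun _ _ _ => 1, fun _ => 1, fun _ a => a.elim, fun _ a => a.elim,
      fun _ => continuousOn_const, continuousOn_const⟩)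
    fun a b t ma mb => P.lf P rfl mb ma
  choose Φ u f using h
  exact ⟨⟨⟨T, V, o, fun t => ⟨t, m t⟩⟩, P.f, fun a => P.F (r a), fun a t b => P.fam _ t (s a b),
    fun a t b => P.ob _ t (s a b), fun a t b => P.pt _ t (s a b), Φ, u, f⟩, r, rfl,
    fun a => ⟨s a, rfl⟩⟩

/-- the families of the Kuranishi charts -/
def preK (A : At C) (l : Cy A ℂ) (τ : Ty n) [hy : Hy A l n] : Pre A l τ (Mod A l τ) where
  ι := Mod A l τ
  U y := (hy.kur τ y).choose.e.source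
  op y := (hy.kur τ y).choose.e.open_source
  cov y := ⟨y, (hy.kur τ y).choose_spec⟩
  f := id
  F y t := (hy.kur τ y).choose.F ((hy.kur τ y).choose.e t)
  fam y t m := by
    generalize (hy.kur τ y).choose = K at m ⊢
    exact ⟨K.r, K.h1, K.h2, K.e.source, K.e.open_source.mem_nhds m,
      P275MB.FamOn.comp K.fam.toFamOn K.e.continuousOn K.e.mapsTo⟩
  ob y t m := (hy.kur τ y).choose.ob _ ((hy.kur τ y).choose.e.map_source m)
  pt y t m := (((hy.kur τ y).choose.symm _ ((hy.kur τ y).choose.e.map_source m)).symm).trans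
    ((hy.kur τ y).choose.e.left_inv m)

/-- the universal system of families -/
def univ (A : At C) (l : Cy A ℂ) (τ : Ty n) [Hy A l n] : Sys A l τ (Mod A l τ) :=
  (preK A l τ).exists_sys.choose

theorem univ_f (A : At C) (l : Cy A ℂ) (τ : Ty n) [Hy A l n] : (univ A l τ).f = id :=
  (preK A l τ).exists_sys.choose_spec.choose_spec.1

theorem univ_map (A : At C) (l : Cy A ℂ) (τ : Ty n) [Hy A l n] :
    (univ A l τ).map = ContinuousMap.id _ := ContinuousMap.ext (congrFun (univ_f A l τ))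

theorem univ_pb_f (g : C(T, Mod A l τ)) : ((univ A l τ).pb g).f = g :=
  funext fun t => congrFun (univ_f A l τ) (g t)

/-- every point of a moduli space has a neighbourhood with a universal family -/
theorem exists_loc (y : Mod A l τ) : ∃ (W : Set (Mod A l τ)) (F : Mod A l τ → Ob A l τ),
    IsOpen W ∧ y ∈ W ∧ ∀ t ∈ W, FamAt A l (fun s => (F s).1) t ∧ (F t).pt = t := by
  classical
  let P := preK A l τ
  obtain ⟨a, m⟩ := P.cov y
  let F : Mod A l τ → Ob A l τ := fun t => if b : t ∈ P.U a then ⟨P.F a t, P.ob a t b⟩ else t.rep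
  have hF : ∀ t (b : t ∈ P.U a), F t = ⟨P.F a t, P.ob a t b⟩ := fun t b => dif_pos b
  refine ⟨P.U a, F, P.op a, m, fun t b => ⟨famAt_congr (P.fam a t b)
    (eventually_of_mem ((P.op a).mem_nhds b) fun s d => by rw [hF s d]), ?_⟩⟩
  rw [hF t b]
  exact P.pt a t b

namespace Sys

/-- a refinement -/
def ref (S : Sys A l τ T) (P : Cov T) (a : P.ι → S.ι) (ha : ∀ c, P.U c ⊆ S.U (a c)) :
    Sys A l τ T where
  toCov := P
  f := S.f
  F c := S.F (a c)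
  fam c t m := S.fam _ t (ha c m)
  ob c t m := S.ob _ t (ha c m)
  pt c t m := S.pt _ t (ha c m)
  Φ c c' := S.Φ (a c) (a c')
  h c c' := S.h (a c) (a c')
  lf c c' := (S.lf _ _).mono fun _ m => ⟨ha c m.1, ha c' m.2⟩

/-- a comparison of two systems -/
structure Cm (S S' : Sys A l τ T) : Type 1 extends Cov T where
  a : ι → S.ι
  b : ι → S'.ι
  ha : ∀ c, U c ⊆ S.U (a c)
  hb : ∀ c, U c ⊆ S'.U (b c)
  Φ : ι → T → Fm A (Mn n)
  u : ι → T → Mn n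
  lf : ∀ c, Lf A τ.H (S.F (a c)) (S'.F (b c)) (Φ c) (u c) (U c)

variable {S S' : Sys A l τ T}

theorem exists_cm (e : S.f = S'.f) : Nonempty (Cm S S') := by
  choose a ha using S.cov
  choose b hb using S'.cov
  choose V hV Φ u f using fun t => S.pre.lf S'.pre e (ha t) (hb t)
  exact ⟨⟨⟨T, fun t => interior (V t) ∩ (S.U (a t) ∩ S'.U (b t)),
    fun t => isOpen_interior.inter ((S.op _).inter (S'.op _)),
    fun t => ⟨t, mem_interior_iff_mem_nhds.2 (hV t), ha t, hb t⟩⟩, a, b, fun _ _ m => m.2.1,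
    fun _ _ m => m.2.2, Φ, u, fun t => (f t).mono fun _ m => interior_subset m.1⟩⟩

namespace Cm

variable (K : Cm S S') {c c' : K.ι} {t : T}

theorem det_u (m : t ∈ K.U c) : (K.u c t).det ≠ 0 := ((K.lf c).iso t m).det_h (S.gd (K.ha c m))

theorem chr_ne (χ : Chr τ.H) (m : t ∈ K.U c) : χ.χ (K.u c t) ≠ 0 :=
  χ.ne ((K.lf c).mem t m) (K.det_u m)

theorem law (m : t ∈ K.U c) (m' : t ∈ K.U c') : ∃ s : ℂ, s ≠ 0 ∧
    K.u c t * S.h (K.a c) (K.a c') t = s • (S'.h (K.b c) (K.b c') t * K.u c' t) ∧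
    ∀ i j, ∀ y ∈ Dc A i, y ∈ Dc A j →
      K.Φ c t i (A.e i y) * S.G (K.a c, i) (K.a c', j) (t, y) =
        s • (S'.G (K.b c, i) (K.b c', j) (t, y) * K.Φ c' t j (A.e j y)) := by
  obtain ⟨s, hs, e, e'⟩ := IB.uniq (S.ob _ t (K.ha c' m'))
    (((K.lf c').iso t m').trans (S'.ib (K.hb c m) (K.hb c' m')))
    ((S.ib (K.ha c m) (K.ha c' m')).trans ((K.lf c).iso t m))
  refine ⟨s, hs, e, fun i j y mi mj => ?_⟩
  simp only [G]
  rw [← mul_assoc, e' i y mi, mul_assoc (S'.Φ _ _ _ _ _), ← ((K.lf c').iso t m').law mi mj,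
    smul_mul_assoc, mul_assoc]

theorem chr_law (χ : Chr τ.H) (m : t ∈ K.U c) (m' : t ∈ K.U c') {s : ℂ}
    (e : K.u c t * S.h (K.a c) (K.a c') t = s • (S'.h (K.b c) (K.b c') t * K.u c' t)) :
    χ.χ (K.u c t) * χ.χ (S.h (K.a c) (K.a c') t) =
      s ^ χ.e * (χ.χ (S'.h (K.b c) (K.b c') t) * χ.χ (K.u c' t)) := by
  rw [← χ.mul _ ((K.lf c).mem t m) _ (S.mem (K.ha c m) (K.ha c' m')), e, χ.smul,
    χ.mul _ (S'.mem (K.hb c m) (K.hb c' m')) _ ((K.lf c').mem t m')]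

/-- the cover of `T × C` -/
def cv : Cov (T × C) := (S.ref K.toCov K.a K.ha).cv

theorem ct_Φ (p : K.ι × Fin A.N) :
    ContinuousOn (fun y : T × C => K.Φ p.1 y.1 p.2 (A.e p.2 y.2)) (K.cv.U p) := (K.lf p.1).cΦ p.2

theorem det_Φ {p : K.ι × Fin A.N} {y : T × C} (m : y ∈ K.cv.U p) :
    (K.Φ p.1 y.1 p.2 (A.e p.2 y.2)).det ≠ 0 := ((K.lf p.1).iso _ m.1).det m.2

end Cm

theorem lb_iso (e : S.f = S'.f) (χ χ' : Chr τ.H) (he : χ.e = χ'.e) :
    (S.lb χ χ' he).Iso (S'.lb χ χ' he) := by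
  obtain ⟨K⟩ := exists_cm e
  refine lb_iso_loc _ _ K.U K.a K.b (fun c t => χ.χ (K.u c t) / χ'.χ (K.u c t)) K.op K.cov K.ha
    K.hb (fun c => (χ.ct.comp_continuousOn (K.lf c).cu).div (χ'.ct.comp_continuousOn (K.lf c).cu)
      fun _ m => K.chr_ne χ' m) (fun c c' t m m' => ?_)
    fun c t m => div_ne_zero (K.chr_ne χ m) (K.chr_ne χ' m)
  obtain ⟨s, hs, e, -⟩ := K.law m m'
  simp only [lb]
  rw [div_mul_div_comm, div_mul_div_comm, K.chr_law χ m m' e, K.chr_law χ' m m' e, he,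
    mul_div_mul_left _ _ (pow_ne_zero _ hs)]

theorem det_nrm {s : ℂ} {g : Mn n} (hs : s ≠ 0) (hg : g.det ≠ 0) : (s⁻¹ • g).det ≠ 0 := by
  rw [det_smul]
  exact mul_ne_zero (pow_ne_zero _ (inv_ne_zero hs)) hg

theorem fb_iso (e : S.f = S'.f) (χ : Chr τ.H) (he : χ.e = 1) :
    (S.fb χ he).Iso (S'.fb χ he) := by
  obtain ⟨K⟩ := exists_cm e
  refine VB.iso_loc _ _ K.U K.a K.b (fun c t => (χ.χ (K.u c t))⁻¹ • K.u c t) K.op K.cov K.ha
    K.hb (fun c => ((χ.ct.comp_continuousOn (K.lf c).cu).inv₀ fun _ m => K.chr_ne χ m).smul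
      (K.lf c).cu) (fun c c' t m m' => ?_)
    fun c t m => bij_of_det (det_nrm (K.chr_ne χ m) (K.det_u m))
  obtain ⟨s, hs, e, -⟩ := K.law m m'
  simp only [fb]
  rw [smul_mul_smul_comm, smul_mul_smul_comm, ← mul_inv, ← mul_inv, K.chr_law χ m m' e, e, he,
    pow_one, smul_smul, mul_inv, mul_right_comm, inv_mul_cancel₀ hs, one_mul]

theorem vb_iso (e : S.f = S'.f) (χ : Chr τ.H) (he : χ.e = 1) :
    (S.vb χ he).Iso (S'.vb χ he) := by
  obtain ⟨K⟩ := exists_cm e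
  refine VB.iso_loc _ _ K.cv.U (fun p => (K.a p.1, p.2)) (fun p => (K.b p.1, p.2))
    (fun p y => (χ.χ (K.u p.1 y.1))⁻¹ • K.Φ p.1 y.1 p.2 (A.e p.2 y.2)) K.cv.op K.cv.cov
    (fun p _ m => ⟨K.ha _ m.1, m.2⟩) (fun p _ m => ⟨K.hb _ m.1, m.2⟩)
    (fun p => (((χ.ct.comp_continuousOn (K.lf p.1).cu).comp continuousOn_fst fun _ m => m.1).inv₀
      fun _ m => K.chr_ne χ m.1).smul (K.ct_Φ p)) (fun p p' y m m' => ?_)
    fun p y m => bij_of_det (det_nrm (K.chr_ne χ m.1) (K.det_Φ m))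
  obtain ⟨s, hs, e, e'⟩ := K.law m.1 m'.1
  simp only [vb]
  rw [smul_mul_smul_comm, smul_mul_smul_comm, ← mul_inv, ← mul_inv, K.chr_law χ m.1 m'.1 e,
    e' _ _ _ m.2 m'.2, he, pow_one, smul_smul, mul_inv, mul_right_comm, inv_mul_cancel₀ hs,
    one_mul]

theorem end_iso (e : S.f = S'.f) : S.tb.End.Iso S'.tb.End := by
  obtain ⟨K⟩ := exists_cm e
  refine VB.iso_loc _ _ K.cv.U (fun p => (K.a p.1, p.2)) (fun p => (K.b p.1, p.2))
    (fun p y => adj (K.Φ p.1 y.1 p.2 (A.e p.2 y.2))) K.cv.op K.cv.cov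
    (fun p _ m => ⟨K.ha _ m.1, m.2⟩) (fun p _ m => ⟨K.hb _ m.1, m.2⟩)
    (fun p => ctOn_adj (K.ct_Φ p) fun _ m => K.det_Φ m) (fun p p' y m m' => ?_)
    fun p y m => bij_of_det (det_adj (K.det_Φ m))
  obtain ⟨s, hs, -, e'⟩ := K.law m.1 m'.1
  simp only [TB.End, tb]
  rw [← adj_mul, ← adj_mul]
  refine adj_of_eq ?_ (e' _ _ _ m.2 m'.2)
  rw [Matrix.det_mul]
  exact mul_ne_zero (K.det_Φ m) (S.det_G (p := (K.a p.1, p.2)) (p' := (K.a p'.1, p'.2))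
    ⟨K.ha _ m.1, m.2⟩ ⟨K.ha _ m'.1, m'.2⟩)

theorem fr_end_iso (e : S.f = S'.f) : S.fr.End.Iso S'.fr.End := by
  obtain ⟨K⟩ := exists_cm e
  refine VB.iso_loc _ _ K.U K.a K.b (fun c t => adj (K.u c t)) K.op K.cov K.ha K.hb
    (fun c => ctOn_adj (K.lf c).cu fun _ m => K.det_u m) (fun c c' t m m' => ?_)
    fun c t m => bij_of_det (det_adj (K.det_u m))
  obtain ⟨s, hs, e', -⟩ := K.law m m'
  simp only [TB.End, fr]
  rw [← adj_mul, ← adj_mul]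
  refine adj_of_eq ?_ e'
  rw [Matrix.det_mul]
  exact mul_ne_zero (K.det_u m) (S.det_h (K.ha _ m) (K.ha _ m'))

theorem Cm.tb_iso (K : Cm S S') : (S.ref K.toCov K.a K.ha).tb.Iso S'.tb := by
  refine ⟨fun p p' y => S'.G p' (K.b p.1, p.2) y * K.Φ p.1 y.1 p.2 (A.e p.2 y.2),
    fun p p' => ctOn_mul ((S'.ct_G p' (K.b p.1, p.2)).mono fun _ m => ⟨m.2, K.hb _ m.1.1, m.1.2⟩)
      ((K.ct_Φ p).mono fun _ m => m.1), fun p p' y m m' => ?_, fun p q p' q' y mp mq mp' mq' => ?_⟩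
  · rw [Matrix.det_mul]
    exact mul_ne_zero (S'.det_G (p' := (K.b p.1, p.2)) m' ⟨K.hb _ m.1, m.2⟩) (K.det_Φ m)
  · obtain ⟨s, hs, -, e⟩ := K.law mp.1 mq.1
    obtain ⟨s1, h1, -, e1⟩ := S'.cc_G (p' := (K.b p.1, p.2)) (p'' := (K.b q.1, q.2)) mp'
      ⟨K.hb _ mp.1, mp.2⟩ ⟨K.hb _ mq.1, mq.2⟩
    obtain ⟨s2, h2, -, e2⟩ := S'.cc_G (p'' := (K.b q.1, q.2)) mp' mq' ⟨K.hb _ mq.1, mq.2⟩
    refine ⟨s * s1 / s2, ?_⟩
    change _ * S.G (K.a p.1, p.2) (K.a q.1, q.2) y = _ • (S'.G p' q' y * _)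
    rw [mul_assoc, e _ _ _ mp.2 mq.2, mul_smul_comm, ← mul_assoc, e1, ← mul_assoc, e2,
      smul_mul_assoc, smul_mul_assoc, smul_smul, smul_smul, div_mul_cancel₀ _ h2]

theorem Cm.fr_iso (K : Cm S S') : (S.ref K.toCov K.a K.ha).fr.Iso S'.fr := by
  refine ⟨fun p p' y => S'.h p' (K.b p) y * K.u p y,
    fun p p' => ctOn_mul ((S'.lf p' (K.b p)).cu.mono fun _ m => ⟨m.2, K.hb _ m.1⟩)
      ((K.lf p).cu.mono fun _ m => m.1), fun p p' y m m' => ?_, fun p q p' q' y mp mq mp' mq' => ?_⟩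
  · rw [Matrix.det_mul]
    exact mul_ne_zero (S'.det_h m' (K.hb _ m)) (K.det_u m)
  · obtain ⟨s, hs, e, -⟩ := K.law mp mq
    obtain ⟨s1, h1, e1, -⟩ := S'.cc mp' (K.hb _ mp) (K.hb _ mq)
    obtain ⟨s2, h2, e2, -⟩ := S'.cc mp' mq' (K.hb _ mq)
    refine ⟨s * s1 / s2, ?_⟩
    change _ * S.h (K.a p) (K.a q) y = _ • (S'.h p' q' y * _)
    rw [mul_assoc, e, mul_smul_comm, ← mul_assoc, e1, ← mul_assoc, e2,
      smul_mul_assoc, smul_mul_assoc, smul_smul, smul_smul, div_mul_cancel₀ _ h2]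

/-- a refinement is compared with the system itself -/
def cmRef (S : Sys A l τ T) (P : Cov T) (a : P.ι → S.ι) (ha : ∀ c, P.U c ⊆ S.U (a c)) :
    Cm S S :=
  ⟨P, a, a, ha, ha, fun _ _ _ _ => 1, fun _ _ => 1, fun _ => Lf.refl _ _ _⟩

theorem ref_tb (S : Sys A l τ T) (P : Cov T) (a : P.ι → S.ι) (ha : ∀ c, P.U c ⊆ S.U (a c)) :
    (S.ref P a ha).tb.Iso S.tb := (S.cmRef P a ha).tb_iso

theorem ref_fr (S : Sys A l τ T) (P : Cov T) (a : P.ι → S.ι) (ha : ∀ c, P.U c ⊆ S.U (a c)) :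
    (S.ref P a ha).fr.Iso S.fr := (S.cmRef P a ha).fr_iso

/-- two systems with the same map are related by a third one -/
theorem zigzag (e : S.f = S'.f) : ∃ S'' : Sys A l τ T, S''.f = S.f ∧ S''.tb.Iso S.tb ∧
    S''.tb.Iso S'.tb ∧ S''.fr.Iso S.fr ∧ S''.fr.Iso S'.fr := by
  obtain ⟨K⟩ := exists_cm e
  exact ⟨S.ref K.toCov K.a K.ha, rfl, S.ref_tb _ _ _, K.tb_iso, S.ref_fr _ _ _, K.fr_iso⟩

/-- the graph of the pole -/
def pole (S : Sys A l τ T) : C(T, T × C) :=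
  ⟨fun t => (t, (S.f t).x), continuous_id.prodMk (P275MB.cont_x.comp S.cont)⟩

theorem ct_σ' (S : Sys A l τ T) (a : S.ι) (i : Fin A.N) :
    ContinuousOn (fun t => (S.F a t).σ i) {t | t ∈ S.U a ∧ (S.f t).x ∈ Dc A i} :=
  (ct_σ (S.fam a) i).mono fun t m => ⟨m.1, (S.x_eq m.1).symm ▸ m.2⟩

theorem G_σ (S : Sys A l τ T) {a b : S.ι} {i j : Fin A.N} {t : T} (ma : t ∈ S.U a)
    (mb : t ∈ S.U b) (mi : (S.f t).x ∈ Dc A i) (mj : (S.f t).x ∈ Dc A j) :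
    S.G (a, i) (b, j) (t, (S.f t).x) * (S.F b t).σ j = (S.F a t).σ i * S.h a b t := by
  rw [← S.x_eq mb] at mi mj ⊢
  simp only [G]
  rw [mul_assoc, ← (S.gd mb).frc mi mj, (S.ib ma mb).fr mi]

theorem det_σ (S : Sys A l τ T) {a : S.ι} {i : Fin A.N} {t : T} (ma : t ∈ S.U a)
    (mi : (S.f t).x ∈ Dc A i) : ((S.F a t).σ i).det ≠ 0 :=
  (S.gd ma).fr ((S.x_eq ma).symm ▸ mi)

/-- the fibre of the universal bundle at the pole -/
theorem fr_pole (S : Sys A l τ T) : S.fr.Iso (S.tb.pb S.pole) := by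
  refine ⟨fun a p t => (S.F p.1 t).σ p.2 * S.h p.1 a t,
    fun a p => ctOn_mul ((S.ct_σ' p.1 p.2).mono fun _ m => m.2)
      ((S.lf p.1 a).cu.mono fun _ m => ⟨m.2.1, m.1⟩), fun a p t m m' => ?_,
    fun a b p q t ma mb mp mq => ?_⟩
  · rw [Matrix.det_mul]
    exact mul_ne_zero (S.det_σ m'.1 m'.2) (S.det_h m'.1 m)
  · obtain ⟨s1, h1, e1, -⟩ := S.cc (t := t) mp.1 ma mb
    obtain ⟨s2, h2, e2, -⟩ := S.cc (t := t) mp.1 mq.1 mb
    refine ⟨s1 / s2, ?_⟩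
    change _ * S.h a b t = _ • (S.G (p.1, p.2) (q.1, q.2) (t, (S.f t).x) *
      ((S.F q.1 t).σ q.2 * S.h q.1 b t))
    rw [mul_assoc, e1, ← mul_assoc, S.G_σ (t := t) mp.1 mq.1 mp.2 mq.2, mul_assoc, e2, mul_smul_comm,
      mul_smul_comm, smul_smul, div_mul_cancel₀ _ h2]

theorem fb_pole (S : Sys A l τ T) (χ : Chr τ.H) (he : χ.e = 1) :
    (S.fb χ he).Iso ((S.vb χ he).pb S.pole) := by
  refine VB.iso_loc _ _ (S.cv.pb S.pole).U Prod.fst (fun p => p) (fun p t => (S.F p.1 t).σ p.2)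
    (S.cv.pb S.pole).op (S.cv.pb S.pole).cov (fun _ _ m => m.1) (fun _ => subset_rfl)
    (fun p => S.ct_σ' p.1 p.2) (fun p q t m m' => ?_) fun p t m => bij_of_det (S.det_σ m.1 m.2)
  change _ * (_ • _) = (_ • S.G (p.1, p.2) (q.1, q.2) (t, (S.f t).x)) * _
  rw [smul_mul_assoc, S.G_σ (t := t) m.1 m'.1 m.2 m'.2, mul_smul_comm]
  rfl

end Sys

end Vale.Agent.P275MM
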