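import Vale.Agent.P275MM.Tow
import Vale.Agent.P275OI.Lg

/-!
# P275, block MM: the flag bundle and the trace formula
-/

set_option linter.all false
set_option backward.isDefEq.respectTransparency false

open CategoryTheory Set Topology
open Vale.Agent.P275GC Vale.Agent.P275MO Vale.Agent.P275Z Vale.Agent.P275OI
open Vale.Agent.P275NA (Cy)
open P275CC
open P275S (H Nice pb)

noncomputable section

namespace Vale.Agent.P275MM

theorem two_nr (n : ℕ) : 2 * nr n = n * (n - 1) := by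
  have : nr n = n.choose 2 := by
    rw [← Fintype.card_fin n, ← Fintype.card_product_filter_lt, Fintype.card_fin]
    exact Finset.card_bij' (fun p _ => (OrderDual.ofDual (ofLex p).2, (ofLex p).1))
      (fun p _ => toLex (p.2, OrderDual.toDual p.1))
      (fun p a => Finset.mem_filter.2 ⟨Finset.mem_univ _, (Finset.mem_filter.1 a).2⟩)
      (fun p a => Finset.mem_filter.2 ⟨Finset.mem_univ _, (Finset.mem_filter.1 a).2⟩)
      (fun _ _ => rfl) fun _ _ => rfl
  rw [this, Nat.choose_two_right, Nat.mul_div_cancel' (Nat.even_mul_pred_self n).two_dvd]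

/-- Leray-Hirsch data with a given top coefficient -/
def HasLG {E B : TopCat.{0}} (p : E ⟶ B) (d : ℤ) (G : H ℂ E → H ℂ B) : Prop :=
  ∃ Q : LG p d, ∀ b, Q.G b = G b

theorem HasLG.comp {E B D : TopCat.{0}} [Nice E] [Nice B] {p : E ⟶ B} {q : B ⟶ D} {d e : ℤ}
    {G G'} (h : HasLG p d G) (h' : HasLG q e G') : HasLG (p ≫ q) (d + e) fun b => G' (G b) := by
  obtain ⟨Q, hQ⟩ := h
  obtain ⟨Q', hQ'⟩ := h'
  exact ⟨Q.comp Q', fun b => by rw [LG.comp_G, hQ, hQ']⟩

theorem hasLG_iso {X Y : Type} [TopologicalSpace X] [TopologicalSpace Y] (f : C(X, Y))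
    (g : C(Y, X)) (h : g.comp f = ContinuousMap.id _) (h' : f.comp g = ContinuousMap.id _) :
    HasLG (TopCat.ofHom f) 0 (pq g) := by
  have : IsIso (TopCat.ofHom f) := ⟨TopCat.ofHom g, TopCat.hom_ext h, TopCat.hom_ext h'⟩
  refine ⟨LG.iso _, fun b => ?_⟩
  rw [LG.iso_G, IsIso.inv_eq_of_hom_inv_id (f := TopCat.ofHom f) (g := TopCat.ofHom g)
    (TopCat.hom_ext h)]
  rfl

variable {C : Type} [TopologicalSpace C] [Nc C] {n : ℕ} {A : At C} {l : Cy A ℂ} [hy : Hy A l n]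

theorem hasLG_piP {k : ℕ} (h : k < n) :
    HasLG (TopCat.ofHom (piP A l n k)) (2 * (n - k - 1) : ℕ) (gP A l th n k) := by
  obtain ⟨Q, hQ⟩ := LG.step (piP_proper ⟨k, h⟩) (piP_pfib ⟨k, h⟩ _ (univ_f A l _)) hy.pos.ne'
  refine ⟨Q, fun b => ?_⟩
  obtain ⟨u, rfl⟩ := (lh_piP (θ := th) h).2 b
  rw [gP, topL_lhL (lh_piP h), yP_eq ⟨k, h⟩]
  change Q.G (∑ i, pq (piP A l n k) (u i) *
    cq ((univ A l (tauP n (k + 1))).y ⟨k, h⟩ le_rfl) ^ (i : ℕ)) = _
  rw [map_sum, Finset.sum_congr rfl fun i _ => hQ (u i) i (Nat.lt_succ_iff.1 i.2)]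
  exact (Finset.sum_eq_single (Fin.last _) (fun j _ e => if_neg fun a => e (Fin.ext a))
    fun e => (e (Finset.mem_univ _)).elim).trans (if_pos rfl)

theorem hasLG_pZ (k : ℕ) :
    HasLG (TopCat.ofHom (pZ A l n k)) ((n - k) * (n - k - 1) : ℕ) (gamP A l th n k) := by
  rcases le_or_gt n k with h | h
  · rw [Nat.sub_eq_zero_of_le h, funext (gamP_ge h)]
    exact hasLG_iso _ _ (qZ_pZ _) (pZ_qZ _)
  · have := (hasLG_pZ (k + 1)).comp (hasLG_piP h)
    rw [← Nat.cast_add, show (n - (k + 1)) * (n - (k + 1) - 1) + 2 * (n - k - 1) =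
      (n - k) * (n - k - 1) by
        obtain ⟨m, rfl⟩ := Nat.exists_eq_add_of_lt h
        rcases m with _ | m <;> simp [add_assoc, Nat.add_sub_add_left]
        ring] at this
    rw [funext (gamP_lt h), ← piP_pZ]
    exact this
termination_by n - k

/-- **FLG** -/
theorem flg (hn : 2 ≤ n) : FLG A l hn := by
  let f : C(FP A l n 0, Mod A l (tauX n)) := tyC A l le_top le_rfl
  let g : C(Mod A l (tauX n), FP A l n 0) := tyC A l par_zero.ge le_rfl
  have e1 : g.comp f = ContinuousMap.id _ :=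
    ContinuousMap.ext fun y => by obtain ⟨z, rfl⟩ := pt_surj y; rfl
  have e2 : f.comp g = ContinuousMap.id _ :=
    ContinuousMap.ext fun y => by obtain ⟨z, rfl⟩ := pt_surj y; rfl
  have e3 : TopCat.ofHom (pZ A l n 0) ≫ TopCat.ofHom f = fg n A l :=
    TopCat.hom_ext (ContinuousMap.ext fun y => by obtain ⟨z, rfl⟩ := pt_surj y; rfl)
  have h := (hasLG_pZ (A := A) (l := l) 0).comp (hasLG_iso f g e1 e2)
  rw [e3, add_zero, Nat.sub_zero, ← two_nr] at h
  obtain ⟨Q, hQ⟩ := h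
  have h1 := (tow A l th n).full 0 (Nat.zero_le n) 1
  have h2 := (tow A l th n).pow_one hy.pos fr_tri ch_lZ (fun _ => rfl) 1
  have h3 := (tow A l th n).pow_two hy.pos fr_tri ch_lZ (fun _ => rfl)
    (T := (univ A l (tauP n 0)).fr) (fr_li_pZ 0).End.symm 1
  rw [map_one, one_mul] at h1 h2 h3
  have h4 : th.pe g (th.p2 (univ A l (tauP n 0)).fr.End) = th.p2 (univ A l (tauX n)).fr.End :=
    (Th.p2_end_pb _ g).symm.trans
      (Th.p2_li (Sys.fr_li (univ_ty (τ := tauX n) (τ' := tauP n 0) _ _)))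
  refine ⟨Q, n.factorial, n.factorial / 2, div_ne_zero (Nat.cast_ne_zero.2 n.factorial_ne_zero)
    two_ne_zero, (hQ _).trans ((congrArg (pq g) h1).trans ?_),
    (hQ _).trans ((congrArg (pq g) h2).trans (map_zero _)),
    (hQ _).trans ((congrArg (pq g) (Eq.trans ?_ h3)).trans ?_)⟩
  · rw [map_nsmul, map_one, Nat.sub_zero, Nat.cast_smul_eq_nsmul]
  · rw [sq]
    rfl
  · rw [one_mul, map_smul, ← h4]
    rfl

end Vale.Agent.P275MM
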