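import Vale.Agent.P275OI.Top

/-!
# P275, block MM: the universal class exists
-/

set_option linter.all false
set_option backward.isDefEq.respectTransparency false

open Vale.Agent.P275Z Vale.Agent.P275OI
open P275S
open P275CC (Nc)

noncomputable section

namespace Vale.Agent.P275MM

theorem exists_lam {C : Type} [TopologicalSpace C] [Nc C] [CompactSpace C] (cv : CURV C)
    {κ : HH C} (hκ : κ ∈ Hd ℂ (TopCat.of C) 2) (h0 : κ ≠ 0) : ∃ lam, Lam κ lam := by
  obtain ⟨ι, _, b, dg, top, h1, h2, h3, h4, h5⟩ := cv κ hκ h0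
  let e := LinearEquiv.ofBijective (Fintype.linearCombination ℂ b) h1
  have he : ∀ r : ι → ℂ, e.symm (∑ j, r j • b j) = r := fun r => e.symm_apply_apply r
  refine ⟨(LinearMap.proj top).comp e.symm.toLinearMap, lam_of cv hκ h0 ?_ fun j hj c hc => ?_⟩
  · classical
    have := congrFun (he (Pi.single top 1)) top
    rwa [Finset.sum_eq_single top (fun j _ a => by rw [Pi.single_eq_of_ne a, zero_smul])
      (by simp), Pi.single_eq_same, one_smul, h3] at this
  · obtain ⟨r, rfl⟩ := h1.2 c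
    have h := KG.pr_of_ne hc (show j ≠ 2 by omega)
    rw [map_sum, Finset.sum_eq_single top (fun i _ a => by
      rw [map_smul, KG.pr_of_ne (h2 i) (by have := h5 i a; omega), smul_zero]) (by simp),
      map_smul, h3, KG.pr_of_mem hκ] at h
    exact (congrFun (he r) top).trans ((smul_eq_zero.1 h).resolve_right h0)

/-- **UNV** -/
theorem unv_of (h : MV0 ∧ P275Z.LHP) (hm : MOD) (cv : ∀ S : Sit, S.Atl → CURV S.C ∧
    ∃ κ ∈ Hd ℂ (TopCat.of S.C) 2, κ ≠ 0) : UNV (IsU h) := fun S T => by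
  have := hy_of T.std (hm S T).1
  obtain ⟨a, κ, hκ, h0⟩ := cv S T
  obtain ⟨lam, L⟩ := exists_lam a hκ h0
  exact ⟨_, ⟨this, inferInstance, univ _ _ _, κ, univ_f _ _ _, hκ, h0, L.isE_iff.2 rfl⟩,
    L.cE_mem _⟩

end Vale.Agent.P275MM
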