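import Vale.Agent.P275MM.Hkg
import Vale.Agent.P275TS.Dt0
import Vale.Agent.P275TS.Ar
import Vale.Agent.P275TX.Tate
import Vale.Agent.P275B.Woi
import Vale.Agent.P275OI.Pk

/-!
# P275, block MM: the Hecke operator lowers the weights
-/

set_option linter.all false
set_option backward.isDefEq.respectTransparency false

open Set Vale.Agent.P275Z Vale.Agent.P275OI Vale.Agent.P275B Vale.Agent.P275TT Vale.Agent.P275TS
open Vale.Agent.P275ST (deg)

namespace Vale.Agent.P275MM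

/-- **TATE** -/
theorem tate_ok (W : WF) (S : Sit) (B : S.Brg) [Hy B.T.A B.T.l S.n]
    (ph : PH B.T.A B.T.l B.T.std.two) (uni : UNI ph) : TATE W B ph := fun w w' e m hw => by
  have h := ari B.T.std.two B.T.std.cop
  obtain ⟨ε, o⟩ := dom B.T.std.two B.T.std.cop
  obtain ⟨_, ⟨X⟩⟩ := ex_X (g := S.g) h rfl
  let Z := dt0 B.T.std.two h B.R.toRHD X (Z0 S.g S.n (deg S.D))
  have I : Idn (T := Z.T) Z.f {z | gd S.n (deg S.D) z} Subtype.val
      (πS B.T.std.two h B.R.toRHD X) :=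
    ⟨Z.nz.1, cov_fS _ h _ X, .subtypeVal, Subtype.range_coe, gS_emb _ h _ X, range_gS _ h _ X,
      fun y y' a b => (congrArg _ (Subtype.ext b)).trans (πS_iter h _ ph a.ne' X)⟩
  obtain ⟨ρ, U, mo, s, hU⟩ := I.glue o B.T.std ph (i := (P275MC.tm Z.hm.smo : Z.S ⟶ Z.T)) Z.f_i
    fun x y e => congrArg _ (Subtype.ext e)
  obtain ⟨r, hr⟩ := uni
  have := P275TX.tate W mo (hr U fun w => (hU w _).2 rfl) (mem_of_eq_of_mem (s w) hw)
  rw [(hU w w').1 e] at this
  exact mem_of_eq_of_mem (s _).symm this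

end Vale.Agent.P275MM
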