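import Vale.Agent.P275MM.Tower

/-!
# P275, block MM: the determinant of the universal bundle, and its section along the pole
-/

set_option linter.all false

open scoped Topology Matrix.Norms.Operator
open Set Filter Metric Matrix Topology
open Vale.Agent.P275GC Vale.Agent.P275GC.At Vale.Agent.P275MO Vale.Agent.P275Z
open Vale.Agent.P275NA (Fm Cy Mn)
open P275CC

noncomputable section

namespace Vale.Agent.P275MM

variable {C : Type} [TopologicalSpace C] {n : ℕ} {A : At C} {l : Cy A ℂ} {τ : Ty n}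
  {T : Type} [TopologicalSpace T] {z z' : Dat C A.N n} {φ : Fm A (Mn n)} {h : Mn n}
  {i j : Fin A.N} {c : C}

theorem Dc_O' (a : c ∈ Dc A i) (b : c ∈ Dc A j) : A.e i c ∈ A.O i j := mem_O a.1 b.1

/-- the line bundle on the curve given by a holomorphic cocycle -/
def lC (hl : A.Cc l) : LB C where
  ι := Fin A.N
  U := Dc A
  op := Dc_open
  cov := Dc_cov A
  g i j c := l i j (A.e i c)
  ct i j := (hl.hol i j).continuousOn.comp ((Dc_ct i).mono inter_subset_left)
    fun _ a => Dc_O' a.1 a.2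
  id i c a := hl.one i _ (Dc_ball A.hR a)
  cc i j k c a b d := by rw [hl.mul i j k _ (Dc_O' a b) (Dc_O' a d), tr_e a.1]

theorem Gd.det_g (g : Gd A l z) (a : c ∈ Dc A i) (b : c ∈ Dc A j) :
    (z.g i j (A.e i c)).det = l i j (A.e i c) := by
  obtain ⟨r, h1, h2, g⟩ := g
  exact g.det i j _ (Dc_O h1 h2 a b)

theorem IB.det_const [T2Space C] [ConnectedSpace C] (g : Gd A l z) (g' : Gd A l z')
    (f : IB A z z' φ h) {c' : C} (m : c ∈ Dc A i) (m' : c' ∈ Dc A j) :
    (φ i (A.e i c)).det = (φ j (A.e j c')).det := by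
  obtain ⟨r, a, b, g⟩ := g
  obtain ⟨r', a', b', g'⟩ := g'
  obtain ⟨r'', a'', b'', f⟩ := f
  have d := lt_min (lt_min a a') a''
  have g1 := P275MB.Good.mono g d ((min_le_left _ _).trans (min_le_left _ _))
  have g2 := P275MB.Good.mono g' d ((min_le_left _ _).trans (min_le_right _ _))
  have f1 := P275MB.IsoBy.mono f d (min_le_right _ _)
  obtain ⟨s, hs⟩ := P275MB.det_const (P275MB.Good.cc_l g1) f1.hol g1.det g2.det f1.law
  exact (hs i _ (Dc_ball d m)).trans (hs j _ (Dc_ball d m')).symm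

/-- the slice of a point of the curve -/
def sl (T : Type) [TopologicalSpace T] (c : C) : C(T, T × C) :=
  ⟨fun t => (t, c), continuous_id.prodMk continuous_const⟩

namespace Sys

variable [hy : Hy A l n] (S : Sys A l τ T) (χ : Chr τ.H) (he : χ.e = 1)

/-- the determinant of the universal bundle -/
theorem det_vb [ConnectedSpace C] (hl : A.Cc l) (c : C) : (S.vb χ he).det.Iso
    (LB.mul (((S.vb χ he).det.pb (sl T c)).pb ContinuousMap.fst)
      ((lC hl).pb ContinuousMap.snd)) := by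
  have := hy.t2
  obtain ⟨k, m⟩ := Dc_cov A c
  refine LB.iso_ref _ _ S.cv.U (fun p => p) (fun p => ((p.1, k), p.2)) S.cv.op S.cv.cov
    (fun _ => subset_rfl) (fun p y a => ⟨⟨a.1, m⟩, a.2⟩) fun p p' y a b => ?_
  change (_ • (_ * _ : Mn n)).det = (_ • (_ * _ : Mn n)).det * l p.2 p'.2 (A.e p.2 y.2)
  rw [det_smul, det_smul, Matrix.det_mul, Matrix.det_mul, (S.gd b.1).det_g a.2 b.2,
    (S.ib a.1 b.1).det_const (S.gd b.1) (S.gd a.1) a.2 m, ← mul_assoc]
  exact congrArg (· * _) (congrArg (_ * ·) ((mul_one _).symm.trans (congrArg (_ * ·)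
    (det_one.symm.trans (congrArg Matrix.det ((S.gd b.1).one m).symm)))))

theorem exists_det_vb [ConnectedSpace C] (hl : A.Cc l) : ∃ M : LB T, (S.vb χ he).det.Iso
    (LB.mul (M.pb ContinuousMap.fst) ((lC hl).pb ContinuousMap.snd)) :=
  ⟨_, S.det_vb χ he hl (Classical.arbitrary C)⟩

theorem vb_g (p p' : S.ι × Fin A.N) (y : T × C) :
    (S.vb χ he).g p p' y = (χ.χ (S.h p.1 p'.1 y.1))⁻¹ • S.G p p' y := rfl

theorem fb_g (a b : S.ι) (t : T) : (S.fb χ he).g a b t = (χ.χ (S.h a b t))⁻¹ • S.h a b t := rfl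

theorem vb_σ {a b : S.ι} {t : T} (ma : t ∈ S.U a) (mb : t ∈ S.U b) (mi : (S.f t).x ∈ Dc A i)
    (mj : (S.f t).x ∈ Dc A j) : (S.vb χ he).g (a, i) (b, j) (t, (S.f t).x) * (S.F b t).σ j =
      (S.F a t).σ i * (S.fb χ he).g a b t := by
  rw [vb_g, fb_g, smul_mul_assoc, S.G_σ ma mb mi mj, mul_smul_comm]

variable {χ} {o : Fin n} (ho : ∀ h ∈ τ.H, ∀ a, a ≠ o → h a o = 0) (hχ : ∀ h, χ.χ h = h o o)

include ho hχ

theorem fb_col {a b : S.ι} {t : T} (ma : t ∈ S.U a) (mb : t ∈ S.U b) :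
    (S.fb χ he).g a b t *ᵥ Pi.single o 1 = Pi.single o 1 := by
  have := S.chr_ne χ ma mb
  rw [hχ] at this
  ext k
  rw [fb_g, mulVec_single_one, hχ]
  by_cases e : k = o
  · simp [e, this]
  · simp [e, ho _ (S.mem ma mb) k e]

/-- the section of the normalised universal bundle along the pole -/
theorem vb_col {a b : S.ι} {t : T} (ma : t ∈ S.U a) (mb : t ∈ S.U b) (mi : (S.f t).x ∈ Dc A i)
    (mj : (S.f t).x ∈ Dc A j) : (S.vb χ he).g (a, i) (b, j) (t, (S.f t).x) *ᵥ
      ((S.F b t).σ j *ᵥ Pi.single o 1) = (S.F a t).σ i *ᵥ Pi.single o 1 := by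
  rw [mulVec_mulVec, S.vb_σ χ he ma mb mi mj, ← mulVec_mulVec, S.fb_col he ho hχ ma mb]

end Sys

end Vale.Agent.P275MM
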