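import Vale.Agent.P275MM.Maps
import Vale.Agent.P275CC.Fl

/-!
# P275, block MM: the tower of partial flags
-/

set_option linter.all false

open scoped Topology Matrix.Norms.Operator
open Set Filter Metric Matrix Topology
open Vale.Agent.P275GC Vale.Agent.P275GC.At Vale.Agent.P275MO Vale.Agent.P275Z
open Vale.Agent.P275NA (Fm Cy Mn)
open Vale.Agent.P275MB (ty cont_ty pt_eq_iff inv_mem_alg)
open P275CC

noncomputable section

namespace Vale.Agent.P275MM

variable {n : ℕ}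

/-- the matrices whose first `k` columns are triangular -/
def par (n k : ℕ) : Subalgebra ℂ (Mn n) where
  carrier := pab n k
  mul_mem' := fun {g h} hg hh a b hb e => by
    rw [Matrix.mul_apply]
    refine Finset.sum_eq_zero fun c _ => ?_
    rcases le_or_gt c b with d | d
    · rw [hg a c (lt_of_le_of_lt d hb) (d.trans_lt e), zero_mul]
    · rw [hh c b hb d, mul_zero]
  add_mem' := fun hg hh a b hb e => by rw [Matrix.add_apply, hg a b hb e, hh a b hb e, add_zero]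
  algebraMap_mem' := fun c a b _ e => by
    rw [Algebra.algebraMap_eq_smul_one, Matrix.smul_apply, one_apply_ne e.ne', smul_zero]

theorem mem_par {k : ℕ} {g : Mn n} :
    g ∈ par n k ↔ ∀ a b : Fin n, (b : ℕ) < k → b < a → g a b = 0 := Iff.rfl

theorem coe_par (n k : ℕ) : (par n k : Set (Mn n)) = pab n k := rfl

theorem par_anti {k k' : ℕ} (h : k ≤ k') : par n k' ≤ par n k :=
  fun _ hg a b hb e => hg a b (hb.trans_le h) e

theorem par_zero : par n 0 = ⊤ := eq_top_iff.2 fun _ _ _ _ hb => absurd hb (Nat.not_lt_zero _)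

theorem bor_le_par (k : ℕ) : bor n ≤ par n k := fun _ hg a b _ e => mem_bor.1 hg a b e

theorem par_eq_bor {k : ℕ} (h : n ≤ k + 1) : par n k = bor n :=
  le_antisymm (fun _ hg => mem_bor.2 fun a b e => hg a b (by have := a.2; omega) e) (bor_le_par k)

theorem par_diag {k : ℕ} {a : Fin n} (ha : (a : ℕ) < k) :
    ∀ g ∈ par n k, ∀ h ∈ par n k, (g * h) a a = g a a * h a a := fun g hg h hh => by
  rw [Matrix.mul_apply, Finset.sum_eq_single a]
  · intro b _ hb
    rcases lt_or_gt_of_ne hb with e | e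
    · rw [hg a b (lt_trans e ha) e, zero_mul]
    · rw [hh b a ha e, mul_zero]
  · simp

/-- partial flags, no pole -/
def tauP (n k : ℕ) : Ty n where
  H := par n k
  q := ⊥
  m := 0
  η := 0
  tr := (tauX n).tr
  conj h _ := (tauX n).conj h trivial
  onto := (tauX n).onto

section alg

variable {k : Fin n} {g g' : Mn n} {c : ℂ}

theorem col_of (m : g ∈ par n k) (m' : g' ∈ Un (par n k))
    (e : ∀ a, k ≤ a → g a k = c * g' a k) : g'⁻¹ * g ∈ par n (k + 1) ∧ (g'⁻¹ * g) k k = c := by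
  have i := inv_mem_alg m'.1 m'.2
  have key : ∀ a, k ≤ a → (g'⁻¹ * g) a k = c * (1 : Mn n) a k := fun a ha => by
    rw [← nonsing_inv_mul _ m'.2.isUnit, Matrix.mul_apply, Matrix.mul_apply, Finset.mul_sum]
    refine Finset.sum_congr rfl fun b _ => ?_
    rcases le_or_gt k b with d | d
    · rw [e b d, mul_left_comm]
    · rw [i a b d (d.trans_le ha), zero_mul, zero_mul, mul_zero]
  refine ⟨fun a b hb d => ?_, by rw [key k le_rfl, one_apply_eq, mul_one]⟩
  rcases (Nat.lt_succ_iff.1 hb).lt_or_eq with f | f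
  · exact mul_mem i m a b f d
  · obtain rfl := Fin.ext f
    rw [key a d.le, one_apply_ne d.ne', mul_zero]

theorem col_eq (m' : g' ∈ Un (par n k)) (u : g'⁻¹ * g ∈ par n (k + 1)) {a : Fin n} (ha : k ≤ a) :
    g a k = (g'⁻¹ * g) k k * g' a k := by
  conv_lhs => rw [← mul_nonsing_inv_cancel_left g' g m'.2.isUnit]
  rw [Matrix.mul_apply, Finset.sum_eq_single k, mul_comm]
  · intro b _ hb
    rcases lt_or_gt_of_ne hb with e | e
    · rw [m'.1 a b e (e.trans_le ha), zero_mul]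
    · rw [u b k (Nat.lt_succ_self _) e, mul_zero]
  · simp

theorem col_ne (m : g ∈ Un (par n k)) : ∃ a, k ≤ a ∧ g a k ≠ 0 := by
  by_contra h
  push Not at h
  have := (col_of (c := 0) m.1 m fun a ha => by rw [h a ha, zero_mul]).2
  rw [nonsing_inv_mul _ m.2.isUnit, one_apply_eq] at this
  exact one_ne_zero this

/-- a matrix with given `k`-th column -/
def mj (k j : Fin n) (u : Fin n → ℂ) : Mn n :=
  (updateCol (1 : Mn n) j u).submatrix id (Equiv.swap k j)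

theorem mj_col (j : Fin n) (u : Fin n → ℂ) (a : Fin n) : mj k j u a k = u a := by
  simp [mj]

theorem mj_mem {j : Fin n} (h : k ≤ j) {u : Fin n → ℂ} (hu : u j ≠ 0) :
    mj k j u ∈ Un (par n k) := by
  refine ⟨fun a b hb e => ?_, ?_⟩
  · have h1 : b ≠ k := ne_of_lt hb
    have h2 : b ≠ j := ne_of_lt (lt_of_lt_of_le hb h)
    simp [mj, Equiv.swap_apply_of_ne_of_ne h1 h2, updateCol_ne h2, one_apply_ne e.ne']
  · rw [mj, det_permute', ← cramer_apply, cramer_one]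
    exact mul_ne_zero (by simp) hu

theorem ct_mj (k j : Fin n) : Continuous (mj k j) :=
  (continuous_const.matrix_updateCol j continuous_id).matrix_submatrix _ _

theorem exists_cpt (k : Fin n) : ∃ K : Set (Mn n), IsCompact K ∧ K ⊆ Un (par n k) ∧
    ∀ g ∈ Un (par n k), ∃ u ∈ K, u⁻¹ * g ∈ par n (k + 1) := by
  refine ⟨⋃ j : {j // k ≤ j}, mj k j '' (closedBall 0 1 ∩ {u | u j = 1}),
    isCompact_iUnion fun j => ((isCompact_closedBall _ _).inter_right
      (isClosed_eq (continuous_apply _) continuous_const)).image (ct_mj k j), ?_, fun g m => ?_⟩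
  · rintro _ ⟨_, ⟨j, rfl⟩, u, hu, rfl⟩
    exact mj_mem j.2 (hu.2 ▸ one_ne_zero)
  · obtain ⟨j, -, hj⟩ := Finset.exists_max_image Finset.univ
      (fun a : {a // k ≤ a} => ‖g a k‖) ⟨⟨k, le_rfl⟩, Finset.mem_univ _⟩
    obtain ⟨a, ha, h0⟩ := col_ne m
    have h1 : g j k ≠ 0 := norm_pos_iff.1 ((norm_pos_iff.2 h0).trans_le (hj ⟨a, ha⟩ (by simp)))
    have h2 : (fun a => if k ≤ a then g a k / g j k else 0) j = 1 := by simp [j.2, h1]
    refine ⟨_, mem_iUnion.2 ⟨j, fun a => if k ≤ a then g a k / g j k else 0, ⟨?_, h2⟩, rfl⟩,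
      (col_of (c := g j k) m.1 (mj_mem j.2 (h2.trans_ne one_ne_zero)) fun b hb => ?_).1⟩
    · refine mem_closedBall_zero_iff.2 ((pi_norm_le_iff_of_nonneg zero_le_one).2 fun b => ?_)
      split_ifs with hb
      · rw [norm_div]
        exact div_le_one_of_le₀ (hj ⟨b, hb⟩ (by simp)) (norm_nonneg _)
      · simp
    · rw [mj_col, if_pos hb, mul_div_cancel₀ _ h1]

variable {r : ℕ} (hr : k + r + 1 = n)

/-- the last indices -/
def up (a : Fin (r + 1)) : Fin n := ⟨k + a, by omega⟩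

/-- extension by zero -/
def hat (v : Fin (r + 1) → ℂ) (a : Fin n) : ℂ :=
  if h : k ≤ a then v ⟨a - k, by omega⟩ else 0

theorem le_up (a : Fin (r + 1)) : k ≤ up hr a := Nat.le_add_right _ _

theorem hat_up (v : Fin (r + 1) → ℂ) (a : Fin (r + 1)) : hat hr v (up hr a) = v a := by
  rw [hat, dif_pos (le_up hr a)]
  exact congrArg v (Fin.ext (Nat.add_sub_cancel_left _ _))

theorem exists_up {a : Fin n} (h : k ≤ a) : ∃ b, up hr b = a :=
  ⟨⟨a - k, by omega⟩, Fin.ext (Nat.add_sub_cancel' h)⟩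

theorem ct_hat : Continuous (hat hr) := continuous_pi fun a => by
  unfold hat
  split_ifs
  · exact continuous_apply _
  · exact continuous_const

/-- `g` has the `k`-th column `v` -/
def Cl (g : Mn n) (v : Fin (r + 1) → ℂ) : Prop := g ∈ Un (par n k) ∧ ∀ a, g (up hr a) k = v a

theorem cl_mj {v : Fin (r + 1) → ℂ} {j : Fin (r + 1)} (h : v j ≠ 0) :
    Cl hr (mj k (up hr j) (hat hr v)) v :=
  ⟨mj_mem (le_up hr j) (by rwa [hat_up]), fun a => by rw [mj_col, hat_up]⟩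

theorem Cl.col {v w : Fin (r + 1) → ℂ} (h : Cl hr g v) (h' : Cl hr g' w) (e : v = c • w) :
    g'⁻¹ * g ∈ par n (k + 1) ∧ (g'⁻¹ * g) k k = c := col_of h.1.1 h'.1 fun a ha => by
  obtain ⟨b, rfl⟩ := exists_up hr ha
  rw [h.2, h'.2, e, Pi.smul_apply, smul_eq_mul]

theorem Cl.eq {v w : Fin (r + 1) → ℂ} (h : Cl hr g v) (h' : Cl hr g' w)
    (u : g'⁻¹ * g ∈ par n (k + 1)) : v = (g'⁻¹ * g) k k • w := funext fun a => by
  rw [← h.2, col_eq h'.1 u (le_up hr a), h'.2, Pi.smul_apply, smul_eq_mul]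

theorem exists_cl (m : g ∈ Un (par n k)) : ∃ v, v ≠ 0 ∧ Cl hr g v := by
  obtain ⟨a, ha, h0⟩ := col_ne m
  obtain ⟨b, rfl⟩ := exists_up hr ha
  exact ⟨fun a => g (up hr a) k, fun e => h0 (congrFun e b), m, fun _ => rfl⟩

end alg

theorem pfib_emb {Y Y' : Type} [TopologicalSpace Y] [TopologicalSpace Y'] {L : LB Y} {F : Set Y}
    {r m : ℕ} (h : PFib L F r m) (e : C(Y', Y)) (he : IsEmbedding e) (hF : F ⊆ range e) :
    PFib (L.pb e) (e ⁻¹' F) r m := by
  classical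
  obtain ⟨q, s, h1, h2, h3, h4, h5, h6, h7⟩ := h
  have h0 : ∀ v : Fin (r + 1) → ℂ, ∃ y, v ≠ 0 → e y = q v := fun v => by
    by_cases a : v = 0
    · obtain ⟨y, -⟩ := hF (h2 ▸ mem_image_of_mem q (one_ne_zero : (1 : Fin (r + 1) → ℂ) ≠ 0))
      exact ⟨y, fun b => (b a).elim⟩
    · exact (hF (h2 ▸ mem_image_of_mem q a)).imp fun _ b _ => b
  choose p hp using h0
  refine ⟨p, s, he.continuousOn_iff.2 (h1.congr hp), ?_, fun v w a b => ?_,
    fun i => (h4 i).mono fun v a => ⟨a.1, (hp v a.1 ▸ a.2 : q v ∈ L.U i)⟩,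
    fun i v a b => h5 i v a (hp v a ▸ b),
    fun i v c a b d => h6 i v c a b (hp v a ▸ d), fun i j v a b d => ?_⟩
  · ext y
    refine ⟨?_, fun a => ?_⟩
    · rintro ⟨v, a, rfl⟩
      exact h2 ▸ ⟨v, a, (hp v a).symm⟩
    · obtain ⟨v, b, d⟩ := (h2.symm ▸ a : e y ∈ q '' {0}ᶜ)
      exact ⟨v, b, he.injective ((hp v b).trans d)⟩
  · rw [← h3 v w a b, ← hp v a, ← hp w b, he.injective.eq_iff]
  · rw [h7 i j v a (hp v a ▸ b) (hp v a ▸ d), ← hp v a]
    rfl

variable {C : Type} [TopologicalSpace C] {A : At C} {l : Cy A ℂ} {τ τ' : Ty n}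
  {T : Type} [TopologicalSpace T] [hy : Hy A l n] {k : Fin n}

/-- a diagonal entry as a character of a parabolic group -/
def entP (k : Fin n) {H : Subalgebra ℂ (Mn n)} (hH : H ≤ par n (k + 1)) : Chr H :=
  Chr.ent k fun _ b _ c => par_diag (Nat.lt_succ_self _) _ (hH b) _ (hH c)

/-- the line bundle of the character `h k k ^ n / det h` -/
def Sys.y (S : Sys A l τ T) (k : Fin n) (hH : τ.H ≤ par n (k + 1)) : LB T :=
  S.lb ((entP k hH).pow n) (Chr.det _) (one_mul n)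

theorem Sys.y_g (S : Sys A l τ T) (hH : τ.H ≤ par n (k + 1)) (a b : S.ι) (t : T) :
    (S.y k hH).g a b t = S.h a b t k k ^ n / (S.h a b t).det := rfl

theorem tower_proper (hH : τ.H ≤ τ'.H) (hq : τ.q ≤ τ'.q) (e : par n (k + 1) ≤ τ.H)
    (e' : τ'.H = par n k) : IsProperMap (ty (A := A) (l := l) hH hq) := by
  obtain ⟨K, h1, h2, h3⟩ := exists_cpt k
  exact ty_proper hH hq h1 (e' ▸ h2) fun g m => (h3 g (e' ▸ m)).imp fun _ a => ⟨a.1, e a.2⟩

theorem rho_wd {q : Submodule ℂ (Mn n)} {z w : Dat C A.N n} {g g' u u' : Mn n} {c : ℂ}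
    {φ φ' : Fm A (Mn n)} (gd : Gd A l z) (o : IsOb A l q (z.act g)) (d : g.det ≠ 0)
    (d' : g'.det ≠ 0) (m : g'⁻¹ * g ∈ par n (k + 1) ∧ (g'⁻¹ * g) k k = c)
    (m' : u' ∈ par n (k + 1)) (f : IB A (z.act g) w φ u) (f' : IB A (z.act g') w φ' u') :
    u k k ^ n / u.det * g.det = c ^ n * (u' k k ^ n / u'.det * g'.det) := by
  obtain ⟨s, hs, e, -⟩ := IB.uniq o ((ib_act gd g d').trans f') f
  have := f'.det_h (gd.act d')
  rw [e, Matrix.smul_apply, det_smul, par_diag (Nat.lt_succ_self _) _ m' _ m.1, m.2,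
    Matrix.det_mul, Matrix.det_mul, det_nonsing_inv, Ring.inverse_eq_inv', Fintype.card_fin,
    smul_eq_mul, mul_pow, mul_pow]
  field_simp

/-- the fibres of a step of the tower are projective spaces -/
theorem tower_pfib (hH : τ.H ≤ τ'.H) (hq : τ.q ≤ τ'.q) (hq' : τ'.q ≤ τ.q)
    (e : τ.H = par n (k + 1)) (e' : τ'.H = par n k) {r : ℕ} (hr : k + r + 1 = n)
    (S : Sys A l τ (Mod A l τ)) (hS : S.f = id) (x : Mod A l τ') :
    PFib (S.y k e.le) (ty hH hq ⁻¹' {x}) r n := by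
  classical
  obtain ⟨W, F, P, m, p, hF⟩ := exists_pres hH hq hq' x
  obtain ⟨-, -, hP⟩ := hF x m
  have gd := Gd.of (F x).2
  rw [e'] at hP
  have h0 : ∀ v : Fin (r + 1) → ℂ, ∃ g, v ≠ 0 → Cl hr g v := fun v => by
    by_cases a : v = 0
    · exact ⟨1, fun b => (b a).elim⟩
    · obtain ⟨j, b⟩ := Function.ne_iff.1 a
      exact ⟨_, fun _ => cl_mj hr b⟩
  choose M hM using h0
  have un : ∀ {g v}, Cl hr g v → g ∈ Un τ'.H := fun a => e' ▸ a.1
  have eq : ∀ {g g' v w} (c : ℂ), Cl hr g v → Cl hr g' w → v = c • w → P (x, g) = P (x, g') :=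
    fun c a b d => (p.eq x m _ (un a) _ (un b)).2 (e ▸ (a.col hr b d).1)
  have loc : ∀ v ∈ ({0}ᶜ : Set (Fin (r + 1) → ℂ)), ∃ (O : Set (Fin (r + 1) → ℂ))
      (G : (Fin (r + 1) → ℂ) → Mn n), IsOpen O ∧ v ∈ O ∧ Continuous G ∧
      ∀ w ∈ O, w ≠ 0 ∧ Cl hr (G w) w := fun v a => by
    obtain ⟨j, b⟩ := Function.ne_iff.1 a
    exact ⟨{w | w j ≠ 0}, _, isOpen_ne_fun (continuous_apply j) continuous_const, b,
      (ct_mj k (up hr j)).comp (ct_hat hr), fun w c => ⟨Function.ne_iff.2 ⟨j, c⟩, cl_mj hr c⟩⟩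
  have cq : ContinuousOn (fun v => P (x, M v)) {0}ᶜ := ctOn_loc fun v a => by
    obtain ⟨O, G, op, b, c, d⟩ := loc v a
    exact ⟨O, op, b, fun w => P (x, G w), p.ct.comp (continuous_const.prodMk c).continuousOn
      fun w f => ⟨m, un (d w f.2).2⟩, fun w f => eq 1 (hM w f.1) (d w f.2).2 (one_smul _ _).symm⟩
  have ib : ∀ {g i}, g ∈ Un (par n k) → P (x, g) ∈ S.U i →
      Iso A τ.H ((F x).1.act g) (S.F i (P (x, g))) := fun {g i} a b => by
    obtain ⟨o, c⟩ := hP g a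
    exact (pt_eq_iff (y := ⟨_, o⟩) (y' := ⟨_, S.ob i _ b⟩)).1
      (c.trans ((S.pt i _ b).trans (congrFun hS _)).symm)
  have h1 : ∀ i v, ∃ φ u, v ≠ 0 → P (x, M v) ∈ S.U i →
      u ∈ par n (k + 1) ∧ IB A ((F x).1.act (M v)) (S.F i (P (x, M v))) φ u := fun i v => by
    by_cases a : v ≠ 0 ∧ P (x, M v) ∈ S.U i
    · obtain ⟨φ, u, b⟩ := iso_iff_ib.1 (ib (hM v a.1).1 a.2)
      exact ⟨φ, u, fun _ _ => e ▸ b⟩
    · exact ⟨0, 0, fun b c => (a ⟨b, c⟩).elim⟩
  choose φ u hu using h1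
  have wd : ∀ {i v g w ψ u'} (c : ℂ), v ≠ 0 → P (x, M v) ∈ S.U i → Cl hr g w → v = c • w →
      u' ∈ par n (k + 1) → IB A ((F x).1.act g) (S.F i (P (x, M v))) ψ u' →
      u i v k k ^ n / (u i v).det * (M v).det = c ^ n * (u' k k ^ n / u'.det * g.det) :=
    fun c a b d f m' f' => rho_wd gd (hP _ (hM _ a).1).1 (hM _ a).1.2 d.1.2
      ((hM _ a).col hr d f) m' (hu _ _ a b).2 f'
  refine ⟨fun v => P (x, M v), fun i v => u i v k k ^ n / (u i v).det * (M v).det, cq, ?_,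
    fun v w a b => ⟨fun c => ?_, fun ⟨c, d⟩ => eq c (hM v a) (hM w b) d⟩, fun i v a => ?_,
    fun i v a b => ?_, fun i v c a b d => ?_, fun i j v a b d => ?_⟩
  · ext y
    refine ⟨?_, fun a => ?_⟩
    · rintro ⟨v, a, rfl⟩
      exact p.pr x m _ (un (hM v a))
    · have a' : ty hH hq y = x := a
      obtain ⟨V, hV, G, -, b⟩ := p.sec y (a' ▸ m)
      obtain ⟨-, c, d⟩ := b y (mem_of_mem_nhds hV)
      obtain ⟨v, f, g⟩ := exists_cl hr (e' ▸ c)
      exact ⟨v, f, (eq 1 (hM v f) g (one_smul _ _).symm).trans (a' ▸ d)⟩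
  · exact ⟨_, (hM v a).eq hr (hM w b) (e ▸ (p.eq x m _ (un (hM v a)) _ (un (hM w b))).1 c)⟩
  · obtain ⟨O, G, op, b, c, d⟩ := loc v a.1
    have c1 : ∀ᶠ w in 𝓝 v, ContinuousAt (fun v => P (x, M v)) w :=
      eventually_of_mem (isOpen_compl_singleton.mem_nhds a.1) fun w f =>
        cq.continuousAt (isOpen_compl_singleton.mem_nhds f)
    have c2 : ∀ᶠ w in 𝓝 v, w ∈ O ∧ P (x, M w) ∈ S.U i :=
      (Filter.Eventually.and (op.mem_nhds b) (c1.self_of_nhds ((S.op i).mem_nhds a.2)))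
    obtain ⟨V, hV, Φ, U, f⟩ := exists_lf (H := τ.H) (q := τ.q) (q' := τ.q)
      (famAt_act (P275MB.famAt_const (F x) v) (Eventually.of_forall fun _ => c.continuousAt)
        (d v b).2.1.2) (P275MB.FamAt.comp (S.fam i _ a.2) c1) (c2.mono fun w g => by
      have e1 := eq 1 (hM w (d w g.1).1) (d w g.1).2 (one_smul _ _).symm
      refine ⟨(hP _ (d w g.1).2.1).1, S.ob i _ g.2, ?_⟩
      rw [e1] at g ⊢
      exact ib (d w g.1).2.1 g.2)
    have c3 := f.cu.continuousAt hV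
    refine (ContinuousAt.congr (f := fun w => U w k k ^ n / (U w).det * (G w).det) ?_ ?_
      ).continuousWithinAt
    · exact (((((continuous_id.matrix_elem k k).continuousAt.comp c3).pow n).div
        (continuous_id.matrix_det.continuousAt.comp c3) ((f.iso v (mem_of_mem_nhds hV)).det_h
          (gd.act (d v b).2.1.2)))).mul c.matrix_det.continuousAt
    · filter_upwards [hV, c2] with w g g'
      rw [wd 1 (d w g'.1).1 g'.2 (d w g'.1).2 (one_smul _ _).symm (e ▸ f.mem w g) (f.iso w g),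
        one_pow, one_mul]
  · have d := (hu i v a b).2.det_h (gd.act (hM v a).1.2)
    exact mul_ne_zero (div_ne_zero (pow_ne_zero _ ((entP k le_rfl).ne (hu i v a b).1 d)) d)
      (hM v a).1.2
  · have a' := smul_ne_zero b a
    have e1 := eq c (hM _ a') (hM v a) rfl
    exact wd c a' (e1 ▸ d) (hM v a) rfl (hu i v a d).1 (e1 ▸ (hu i v a d).2)
  · have m1 : S.h i j (P (x, M v)) ∈ par n (k + 1) := e ▸ S.mem b d
    refine (wd 1 a b (hM v a) (one_smul _ _).symm (mul_mem m1 (hu j v a d).1)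
      ((hu j v a d).2.trans (S.ib b d))).trans ?_
    rw [par_diag (Nat.lt_succ_self _) _ m1 _ (hu j v a d).1, Matrix.det_mul]
    refine Eq.trans ?_ (congrArg (· * _) (S.y_g e.le i j _)).symm
    ring

/-- the same for any system whose map is an embedding -/
theorem tower_pfib' (hH : τ.H ≤ τ'.H) (hq : τ.q ≤ τ'.q) (hq' : τ'.q ≤ τ.q)
    (e : τ.H = par n (k + 1)) (e' : τ'.H = par n k) {r : ℕ} (hr : k + r + 1 = n)
    (g : C(T, Mod A l τ)) (hg : IsEmbedding g) (x : Mod A l τ') (hx : ty hH hq ⁻¹' {x} ⊆ range g) :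
    PFib (((univ A l τ).pb g).y k e.le) (g ⁻¹' (ty hH hq ⁻¹' {x})) r n :=
  pfib_emb (tower_pfib hH hq hq' e e' hr _ (univ_f A l τ) x) g hg hx

/-- forget the last step of the partial flag -/
def piP (A : At C) (l : Cy A ℂ) (n k : ℕ) : C(Mod A l (tauP n (k + 1)), Mod A l (tauP n k)) :=
  tyC A l (par_anti (Nat.le_succ k)) le_rfl

theorem piP_proper (k : Fin n) : IsProperMap (piP A l n k) :=
  tower_proper (τ := tauP n (k + 1)) (τ' := tauP n k) (par_anti (Nat.le_succ k)) le_rfl le_rfl rfl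

theorem piP_pfib (k : Fin n) (S : Sys A l (tauP n (k + 1)) (Mod A l (tauP n (k + 1))))
    (hS : S.f = id) (x : Mod A l (tauP n k)) :
    PFib (S.y k le_rfl) (piP A l n k ⁻¹' {x}) (n - k - 1) n :=
  tower_pfib (k := k) (r := n - k - 1) (τ := tauP n (k + 1)) (τ' := tauP n k)
    (par_anti (Nat.le_succ k)) le_rfl le_rfl rfl rfl (by have := k.2; omega) S hS x

theorem Sys.ch_lb (S : Sys A l τ T) (χ χ' : Chr τ.H) (he) : S.fr.Ch χ.χ χ'.χ (S.lb χ χ' he) :=
  ⟨fun i => i, fun _ => subset_rfl, fun _ _ _ _ _ => rfl⟩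

theorem Sys.ch_y (S : Sys A l τ T) (hH : τ.H ≤ par n (k + 1)) :
    S.fr.Ch (fun g => g k k ^ n) Matrix.det (S.y k hH) := S.ch_lb _ _ _

theorem Sys.fr_in (S : Sys A l τ T) : S.fr.In τ.H := fun _ _ _ a b => S.mem a b

theorem Sys.fr_li {S S' : Sys A l τ T} (e : S.f = S'.f) : TB.LI τ.H S.fr S'.fr := by
  obtain ⟨K⟩ := Sys.exists_cm e
  exact ⟨K.ι, K.U, K.a, K.b, K.u, K.op, K.cov, K.ha, K.hb, fun c => (K.lf c).cu,
    fun c t m => ⟨(K.lf c).mem t m, K.det_u m⟩, fun c c' t m m' =>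
      (K.law m m').imp fun _ a => a.2.1⟩

theorem Sys.tb_li {S S' : Sys A l τ T} (e : S.f = S'.f) : TB.LI Set.univ S.tb S'.tb := by
  obtain ⟨S'', -, a, b, -⟩ := Sys.zigzag e
  exact a.li.symm.trans b.li

theorem Sys.y_iso {S S' : Sys A l τ T} (e : S.f = S'.f) (hH : τ.H ≤ par n (k + 1)) :
    (S.y k hH).Iso (S'.y k hH) := Sys.lb_iso e _ _ _

theorem Sys.pb_y {T' : Type} [TopologicalSpace T'] (S : Sys A l τ T) (g : C(T', T))
    (hH : τ.H ≤ par n (k + 1)) : (S.pb g).y k hH = (S.y k hH).pb g := rfl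

theorem Sys.ty_y (S : Sys A l τ T) (hH : τ.H ≤ τ'.H) (hq : τ.q ≤ τ'.q)
    (h : τ'.H ≤ par n (k + 1)) : (S.ty hH hq).y k h = S.y k (hH.trans h) := rfl

/-- the universal systems are compatible with the change of type -/
theorem univ_ty (hH : τ.H ≤ τ'.H) (hq : τ.q ≤ τ'.q) :
    ((univ A l τ').pb (tyC A l hH hq)).f = ((univ A l τ).ty hH hq).f :=
  (univ_pb_f _).trans (funext fun t => congrArg (ty hH hq) (congrFun (univ_f A l τ) t).symm)

end Vale.Agent.P275MM
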