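import Vale.Agent.P275TT.Top
import Vale.Agent.P275CN.Row

/-!
# P275, block MM: the monodromy datum of the family of flat objects
-/

set_option linter.all false
set_option backward.isDefEq.respectTransparency false

open CategoryTheory Set Function Topology
open Vale.Agent.P275GC Vale.Agent.P275MO Vale.Agent.P275Z Vale.Agent.P275OI Vale.Agent.P275TT
open Vale.Agent.P275CN (sD bij_sD cx_open cx_pt)
open Vale.Agent.P275HE (phi o0)
open Vale.Agent.P275NA (Cy)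
open P275CC (Nc)
open P275S (H pb pb_comp)

noncomputable section

namespace Vale.Agent.P275MM

variable {C : Type} [TopologicalSpace C] [Nc C] {n : ℕ} {A : At C} {l : Cy A ℂ} {d : ℤ}
  {hn : 2 ≤ n}

theorem itr_val (ph : PH A l hn) (y : sb (sTp A l hn)) (k : ℕ) :
    (itr (φ1 ph) k y).1 = (phi (o0 hn))^[k] y.1 :=
  (Function.Semiconj.iterate_right (f := fun y : sTp A l hn => y.1) (fun _ => rfl) k) y

theorem itr_zz (ph : PH A l hn) (k : ℕ) : ∀ y : sb (sTp A l hn), y.1.lam = 1 →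
    (itr (φ1 ph) k y).1.lam = 1 ∧
      zz (itr (φ1 ph) k y).1 = zz y.1 + k * (tauY hn).η (P275HE.mu (o0 hn)) (0 : Fin 1) := by
  induction k with
  | zero => exact fun y h => ⟨h, by rw [Nat.cast_zero, zero_mul, add_zero]; rfl⟩
  | succ k ih =>
    intro y h
    obtain ⟨a, b⟩ := ih (φ1 ph y) ((ph.lam _).trans h)
    have e := congrFun (ph.η y.1 (sTp_om y.2)) (0 : Fin 1)
    rw [h, one_smul] at e
    exact ⟨a, b.trans ((congrArg (· + _) e).trans (by rw [Pi.add_apply, zz]; push_cast; ring))⟩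

variable {T : TopCat.{0}} {f : T → ℂ} {Ω : Set ℂ} {ε : ℝ} {Y : Type} [TopologicalSpace Y]

/-- `Y` is the space of flat objects over `Ω`, and the space of the logarithms of `f`; the Hecke
map covers the identity of `T` -/
structure Idn (f : T → ℂ) (Ω : Set ℂ) (u : Y → Mod A l (tauY hn)) (π : Y → T) : Prop where
  ct : Continuous f
  cov : ∀ t, ∃ z ∈ Ω, 0 ≤ z.re ∧ z.re < 1 ∧ ex z = f t
  emb : IsEmbedding u
  rng : range u = {y | y.lam = 1 ∧ zz y ∈ Ω}
  emb' : IsEmbedding fun y => (π y, zz (u y))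
  rng' : range (fun y => (π y, zz (u y))) = {p | p.2 ∈ Ω ∧ ex p.2 = f p.1}
  hk : ∀ y y', 0 < (zz (u y)).im → u y' = (phi (o0 hn))^[n] (u y) → π y' = π y

variable {u : Y → Mod A l (tauY hn)} {π : Y → T} (h : Idn f Ω u π)

/-- the identification -/
def Idn.e : Y ≃ₜ Dp f Ω := h.emb'.toHomeomorph.trans (.setCongr h.rng')

/-- the flat object of a logarithm -/
def Idn.k : Dp f Ω ⟶ MT A l (tauY hn) :=
  TopCat.ofHom ⟨fun p => u (h.e.symm p), h.emb.continuous.comp h.e.symm.continuous⟩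

theorem Idn.val (p : Dp f Ω) : (π (h.e.symm p), zz (h.k p)) = p.1 :=
  congrArg Subtype.val (h.e.apply_symm_apply p)

theorem Idn.k_eq {p : Dp f Ω} {y : Y} (e : (π y, zz (u y)) = p.1) : h.k p = u y :=
  congrArg u (h.e.symm_apply_eq.2 (Subtype.ext e.symm))

theorem Idn.z (p : Dp f Ω) : zz (h.k p) = p.1.2 := congrArg Prod.snd (h.val p)

theorem Idn.lam (p : Dp f Ω) : (h.k p).lam = 1 := (h.rng.subset ⟨_, rfl⟩).1

variable [hy : Hy A l n]

theorem Idn.mo (o : Dom Ω ε) (hS : Std A l n d) (ph : PH A l hn)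
    {U : Module.End ℂ (H ℂ (MT A l (tauY hn)))}
    (hU : ∀ w, pb (itr (φ1 ph) n) (pb (jT A l hn) w) = pb (jT A l hn) (U w)) :
    Mo f o (pb h.k).toLinearMap U := by
  refine ⟨h.ct, h.cov, fun P s c ne a => ?_, fun a => ?_⟩
  · have := bij_sD (k := ℂ) hS (a.elim (cx_open · c ne) fun e => e ▸ cx_pt 0)
      (a := P275TT.inc f s ≫ h.k) ((h.emb.comp h.e.symm.isEmbedding).comp (.of_comp
      (P275TT.inc f s).hom.continuous continuous_subtype_val .subtypeVal)) (Set.ext fun y =>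
        ⟨fun ⟨p, e⟩ => e ▸ ⟨h.lam _, (h.z _).symm ▸ p.2.1⟩, fun b => by
          obtain ⟨x, rfl⟩ := h.rng.superset ⟨b.1, s b.2⟩
          exact ⟨⟨(h.e x).1, b.2, (h.e x).2.2⟩, h.k_eq rfl⟩⟩)
    exact (funext fun a => (pb_comp (P275TT.inc f s) h.k a).symm :
      ⇑(pb (k := ℂ) (P275TT.inc f s ≫ h.k)) = _) ▸ this
  · let j : Dp f Up ⟶ sb (sTp A l hn) := cod (P275TT.inc f o.up ≫ h.k) _ fun p =>
      ⟨(congrArg Complex.im (h.lam _)).trans Complex.one_im, (h.z _).symm ▸ p.2.1⟩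
    have e := congrArg (pb j) (hU a)
    rw [pb_comp, pb_comp, pb_comp, show (j ≫ itr (φ1 ph) n) ≫ jT A l hn = sh f o.up' ≫ h.k from
      TopCat.hom_ext (ContinuousMap.ext fun p => ?_)] at e
    · exact (pb_comp _ _ _).trans (e.symm.trans (pb_comp _ _ _).symm)
    obtain ⟨b, c⟩ := itr_zz ph n (j p) (h.lam _)
    rw [show (n : ℂ) * _ = 1 from Complex.ofReal_natCast n ▸ ph.one,
      show zz (j p).1 = p.1.2 from h.z _] at c
    obtain ⟨y, e⟩ := h.rng.superset ⟨b, c ▸ o.up' _ p.2.1⟩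
    exact e.symm.trans (h.k_eq (p := sh f o.up' p) (Prod.ext ((h.hk _ y (j p).2.2 (e.trans (itr_val ph _ n))).trans
      (congrArg Prod.fst (h.val (P275TT.inc f o.up p)))) ((congrArg zz e).trans c))).symm

/-- the Hecke operator -/
theorem exists_U (hS : Std A l n d) (ph : PH A l hn) :
    ∃ U : Module.End ℂ (H ℂ (MT A l (tauY hn))), ∀ w w',
      pb (itr (φ1 ph) n) (pb (jT A l hn) w) = pb (jT A l hn) w' ↔ U w = w' := by
  let e := LinearEquiv.ofBijective (pb (k := ℂ) (jT A l hn)).toLinearMap (P275CN.bijt hS)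
  exact ⟨e.symm.toLinearMap ∘ₗ (pb (itr (φ1 ph) n)).toLinearMap ∘ₗ e.toLinearMap,
    fun w w' => e.symm_apply_eq.symm⟩

include h in
/-- **the Hecke operator is the monodromy** -/
theorem Idn.glue (o : Dom Ω ε) (hS : Std A l n d) (ph : PH A l hn)
    {i : sb (sL A l (tauZ n 0) 1) ⟶ T} (hi : ∀ x, f (i x) = 1)
    (hs : ∀ x y, u y = i0 A l hn x.1 → π y = i x) :
    ∃ (ρ : H ℂ (MT A l (tauY hn)) →ₗ[ℂ] H ℂ (Dp f Ω)) (U : Module.End ℂ _), Mo f o ρ U ∧
      (∀ a, pb (sl f i hi o.zero) (ρ a) = pb (P275OI.inc _) (pb (i0 A l hn) a)) ∧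
      ∀ w w', pb (itr (φ1 ph) n) (pb (jT A l hn) w) = pb (jT A l hn) w' ↔ U w = w' := by
  obtain ⟨U, hU⟩ := exists_U hS ph
  refine ⟨_, U, h.mo o hS ph fun w => (hU w _).2 rfl, fun a => (pb_comp _ _ _).trans
    ((congrArg (pb · a) (TopCat.hom_ext (ContinuousMap.ext fun x => ?_))).trans
      (pb_comp _ _ _).symm), hU⟩
  obtain ⟨b, c⟩ := (P275CN.range_i0 (hn := hn)).subset ⟨x, rfl⟩
  obtain ⟨y, e⟩ := h.rng.superset ⟨b, c ▸ o.zero⟩
  exact (h.k_eq (p := sl f i hi o.zero x) (Prod.ext (hs x y e) ((congrArg zz e).trans c))).trans e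

end Vale.Agent.P275MM
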