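import Vale.Agent.P275MM.Tower

/-!
# P275, block MM: the tower of partial flags in cohomology
-/

set_option linter.all false
set_option backward.isDefEq.respectTransparency false

open Set Matrix Topology
open Vale.Agent.P275GC Vale.Agent.P275MO Vale.Agent.P275Z
open Vale.Agent.P275NA (Fm Cy Mn)
open Vale.Agent.P275MB (ty)
open P275CC

noncomputable section

namespace Vale.Agent.P275MM

section top

variable (θ : Th) {X Y : Type} [TopologicalSpace X] [TopologicalSpace Y] [Nc X] [Nc Y]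
  (π : C(Y, X)) (y : θ.E Y) (r : ℕ)

/-- the map of the Leray-Hirsch theorem -/
def lhL : (Fin (r + 1) → θ.H X) →ₗ[ℂ] θ.H Y where
  toFun a := ∑ i, θ.pb π (a i) * (y : θ.H Y) ^ (i : ℕ)
  map_add' a b := by simp only [Pi.add_apply, map_add, add_mul, Finset.sum_add_distrib]
  map_smul' c a := by
    simp only [Pi.smul_apply, map_smul, smul_mul_assoc, RingHom.id_apply, Finset.smul_sum]

open Classical in
/-- the top coefficient -/
def topL : θ.H Y →ₗ[ℂ] θ.H X :=
  if h : Function.Bijective (lhL θ π y r) then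
    (LinearMap.proj (Fin.last r)).comp (LinearEquiv.ofBijective _ h).symm.toLinearMap
  else 0

variable {θ π y r} (h : Function.Bijective (lhL θ π y r))
include h

theorem topL_lhL (a : Fin (r + 1) → θ.H X) : topL θ π y r (lhL θ π y r a) = a (Fin.last r) := by
  rw [topL, dif_pos h]
  exact congrFun ((LinearEquiv.ofBijective _ h).symm_apply_apply a) _

theorem topL_pow (a : θ.H X) {i : ℕ} (hi : i < r + 1) :
    topL θ π y r (θ.pb π a * (y : θ.H Y) ^ i) = if i + 1 = r + 1 then a else 0 := by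
  have e : lhL θ π y r (Pi.single ⟨i, hi⟩ a) = θ.pb π a * (y : θ.H Y) ^ i := by
    simp only [lhL, LinearMap.coe_mk, AddHom.coe_mk]
    rw [Finset.sum_eq_single ⟨i, hi⟩ (fun j _ e => by
      rw [Pi.single_eq_of_ne e, map_zero, zero_mul]) fun e => (e (Finset.mem_univ _)).elim,
      Pi.single_eq_same]
  rw [← e, topL_lhL h, Pi.single_apply]
  exact if_congr (by simp [Fin.ext_iff, eq_comm]) rfl rfl

theorem topL_mul_left (a : θ.H X) (b : θ.H Y) :
    topL θ π y r (θ.pb π a * b) = a * topL θ π y r b := by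
  obtain ⟨u, rfl⟩ := h.2 b
  rw [topL_lhL h, ← topL_lhL h fun i => a * u i]
  congr 1
  simp only [lhL, LinearMap.coe_mk, AddHom.coe_mk, Finset.mul_sum, map_mul, mul_assoc]

theorem topL_mul (b : θ.H Y) (a : θ.H X) :
    topL θ π y r (b * θ.pb π a) = topL θ π y r b * a := by
  obtain ⟨u, rfl⟩ := h.2 b
  rw [topL_lhL h, ← topL_lhL h fun i => u i * a]
  congr 1
  simp only [lhL, LinearMap.coe_mk, AddHom.coe_mk, Finset.sum_mul, map_mul, mul_assoc]
  exact Finset.sum_congr rfl fun i _ => congrArg _ (Th.ev_comm (pow_mem y.2 _) _)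

end top

variable {C : Type} [TopologicalSpace C] {n : ℕ} (A : At C) (l : Cy A ℂ) [hy : Hy A l n] (θ : Th)

/-- the spaces of partial flags -/
abbrev FP (n k : ℕ) : Type := Mod A l (tauP n k)

/-- the space of full flags -/
abbrev FZ (n : ℕ) : Type := Mod A l (tauZ n (nr n))

/-- from full flags to partial flags -/
def pZ (n k : ℕ) : C(FZ A l n, FP A l n k) := tyC A l (bor_le_par k) nk_top.le

/-- from partial flags, which are full, to full flags -/
def qZ {k : ℕ} (h : n ≤ k + 1) : C(FP A l n k, FZ A l n) := tyC A l (par_eq_bor h).le bot_le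

/-- the class of the last line of a partial flag -/
def yP (n : ℕ) [Hy A l n] (k : ℕ) : θ.E (FP A l n (k + 1)) :=
  if h : k < n then θ.c ((univ A l (tauP n (k + 1))).y ⟨k, h⟩ le_rfl) else 0

/-- the line bundles of a full flag -/
def lZ (a : Fin n) : LB (FZ A l n) := (univ A l (tauZ n (nr n))).y a (bor_le_par _)

/-- the top coefficient for one step of the tower -/
def gP (n : ℕ) [Hy A l n] (k : ℕ) : θ.H (FP A l n (k + 1)) →ₗ[ℂ] θ.H (FP A l n k) :=
  topL θ (piP A l n k) (yP A l θ n k) (n - k - 1)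

/-- the iterated top coefficient -/
def gamP (n : ℕ) [Hy A l n] (k : ℕ) : θ.H (FZ A l n) →ₗ[ℂ] θ.H (FP A l n k) :=
  if h : k < n then (gP A l θ n k).comp (gamP n (k + 1))
  else (θ.pb (qZ A l (by omega))).toLinearMap
termination_by n - k

variable {A l θ}

theorem yP_eq (k : Fin n) : yP A l θ n k = θ.c ((univ A l (tauP n (k + 1))).y k le_rfl) :=
  dif_pos k.2

theorem piP_pZ (k : ℕ) : (piP A l n k).comp (pZ A l n (k + 1)) = pZ A l n k :=
  ContinuousMap.ext fun y => by obtain ⟨z, rfl⟩ := pt_surj y; rfl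

theorem pZ_qZ {k : ℕ} (h : n ≤ k + 1) : (pZ A l n k).comp (qZ A l h) = ContinuousMap.id _ :=
  ContinuousMap.ext fun y => by obtain ⟨z, rfl⟩ := pt_surj y; rfl

theorem qZ_pZ {k : ℕ} (h : n ≤ k + 1) : (qZ A l h).comp (pZ A l n k) = ContinuousMap.id _ :=
  ContinuousMap.ext fun y => by obtain ⟨z, rfl⟩ := pt_surj y; rfl

theorem lh_piP {k : ℕ} (h : k < n) :
    Function.Bijective (lhL θ (piP A l n k) (yP A l θ n k) (n - k - 1)) := by
  rw [yP_eq ⟨k, h⟩]
  exact θ.lh _ _ _ n (piP_proper ⟨k, h⟩) hy.pos.ne' (piP_pfib ⟨k, h⟩ _ (univ_f A l _))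

theorem pe_yP (a : Fin n) : θ.pe (pZ A l n (a + 1)) (yP A l θ n a) = θ.c (lZ A l a) := by
  rw [yP_eq, ← Th.c_pb]
  exact Th.c_iso (Sys.y_iso (univ_ty (τ := tauZ n (nr n)) (τ' := tauP n (a + 1)) _ _) le_rfl)

theorem gamP_lt {k : ℕ} (h : k < n) (b : θ.H (FZ A l n)) :
    gamP A l θ n k b = gP A l θ n k (gamP A l θ n (k + 1) b) := by
  rw [gamP, dif_pos h]
  rfl

theorem gamP_ge {k : ℕ} (h : n ≤ k) (b : θ.H (FZ A l n)) :
    gamP A l θ n k b = θ.pb (qZ A l (Nat.le_succ_of_le h)) b := by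
  rw [gamP, dif_neg (not_lt.2 h)]
  rfl

theorem fr_li_pZ (k : ℕ) : TB.LI (pab n k) ((univ A l (tauP n k)).fr.pb (pZ A l n k))
    (univ A l (tauZ n (nr n))).fr :=
  Sys.fr_li (univ_ty (τ := tauZ n (nr n)) (τ' := tauP n k) _ _)

theorem fr_tri : (univ A l (tauZ n (nr n))).fr.In (tri (Fin n)) := Sys.fr_in _

theorem ch_lZ (a : Fin n) :
    (univ A l (tauZ n (nr n))).fr.Ch (fun g => g a a ^ n) Matrix.det (lZ A l a) := Sys.ch_y _ _

variable (A l θ) in
/-- the tower of partial flags -/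
def tow (n : ℕ) [Hy A l n] : Th.Tow θ n (FP A l n) (FZ A l n) where
  π := piP A l n
  P := pZ A l n
  y := yP A l θ n
  z a := θ.c (lZ A l a)
  G k := (gP A l θ n k).toAddMonoidHom
  Γ k := (gamP A l θ n k).toAddMonoidHom
  hP k _ := piP_pZ k
  hy := pe_yP
  sym k h := Th.sym θ h _ (Sys.fr_in _) _ fr_tri (fr_li_pZ k) ch_lZ
  hG k h a i hi := (topL_pow (lh_piP h) a (by omega)).trans (if_congr (by omega) rfl rfl)
  top a := (gamP_ge le_rfl _).trans (by rw [← θ.pb_comp, pZ_qZ, θ.pb_id])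
  hΓ k h b := gamP_lt h b

theorem gamP_mul (k : ℕ) (b : θ.H (FZ A l n)) (a : θ.H (FP A l n k)) :
    gamP A l θ n k (b * θ.pb (pZ A l n k) a) = gamP A l θ n k b * a := by
  rcases le_or_gt n k with h | h
  · rw [gamP_ge h, gamP_ge h, map_mul, ← θ.pb_comp, pZ_qZ, θ.pb_id]
  · rw [gamP_lt h, gamP_lt h, ← piP_pZ, θ.pb_comp, gamP_mul (k + 1)]
    exact topL_mul (lh_piP h) _ a
termination_by n - k

theorem gamP_mul_left (k : ℕ) (a : θ.H (FP A l n k)) (b : θ.H (FZ A l n)) :
    gamP A l θ n k (θ.pb (pZ A l n k) a * b) = a * gamP A l θ n k b := by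
  rcases le_or_gt n k with h | h
  · rw [gamP_ge h, gamP_ge h, map_mul, ← θ.pb_comp, pZ_qZ, θ.pb_id]
  · rw [gamP_lt h, gamP_lt h, ← piP_pZ, θ.pb_comp, gamP_mul_left (k + 1)]
    exact topL_mul_left (lh_piP h) a _
termination_by n - k

end Vale.Agent.P275MM
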